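import Vale.Agent.H97.GC.Chain

/-!
# Blocks of split steps and of pure kink steps (support for P058)

TASK GC-B.  Prove `ch_splits` and `ch_kinks` (statements unchanged; helper lemmas with fresh
names starting `gcb_` inside this file).  Black boxes: `ch_split`, `ch_kink`, `ch_congr`
(Chain.lean), `qp_norm_ph` (Vale/Agent/H16/Quad/Phase.lean: `‖ph ζ i‖ = 1` when `ζ ^ m = 1`).
`ch_splits`: induction on `t` with `ch_split` (`Finset.prod_range_succ`, commutativity).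
`ch_kinks`: induction on `t` with `ch_kink`.  Key identity for `‖ω‖ = 1`, `Λ = lam + (1 - lam) ω`:
`‖Λ‖² = 1 - lam (1 - lam) ‖1 - ω‖²` (both sides are `lam² + (1 - lam)² + 2 lam (1 - lam) Re ω`,
as `‖1 - ω‖² = 2 - 2 Re ω`).  So for the new multiplier `Φ' = Φ / Λ` (`‖Φ‖ = ‖Λ‖ ‖Φ'‖`) the added
mass is `‖Φ'‖² ‖1 - ω‖² = (‖Φ'‖² - ‖Φ‖²) / (lam (1 - lam)) ≥ 0`, and
`K + (‖Φ'‖² - ‖Φ‖²) / (lam (1 - lam)) ≤ K₀ + ‖Φ'‖² / (lam (1 - lam))`.
-/

namespace Vale.Agent.H97.GC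

open Vale.Agent.H16.Kite
open scoped BigOperators ComplexConjugate

/-- For `‖ω‖ = 1`: `‖lam + (1 - lam) ω‖² = 1 - lam (1 - lam) ‖1 - ω‖²`. -/
theorem gcb_norm_sq (lam : ℝ) (ω : ℂ) (hω : ‖ω‖ = 1) :
    ‖(lam : ℂ) + (1 - (lam : ℂ)) * ω‖ ^ 2 = 1 - lam * (1 - lam) * ‖1 - ω‖ ^ 2 := by
  have h1 : ω.re * ω.re + ω.im * ω.im = 1 := by
    have h := Complex.sq_norm ω
    rw [hω, Complex.normSq_apply] at h
    linarith
  rw [Complex.sq_norm, Complex.sq_norm, Complex.normSq_apply, Complex.normSq_apply]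
  simp only [Complex.add_re, Complex.add_im, Complex.mul_re, Complex.mul_im, Complex.sub_re,
    Complex.sub_im, Complex.ofReal_re, Complex.ofReal_im, Complex.one_re, Complex.one_im]
  linear_combination (1 - lam) * h1

/-- Prepending the split steps with data 0, 0, `f i`, for `i < t`: no new kink mass, no new cross term. -/
theorem ch_splits {lam mu : ℝ} {m : ℕ} [NeZero m] {ζ : ℂ} {L : ℕ} {Φ : ℂ} {K X : ℝ}
    (h : Ch lam mu m ζ L Φ K X) (f : ℕ → ZMod m) (t : ℕ) :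
    Ch lam mu m ζ (L + t)
      ((∏ i ∈ Finset.range t, ((mu : ℂ) + (1 - (mu : ℂ)) * ph ζ (f i))) * Φ) K X := by
  induction t with
  | zero => exact ch_congr h (by simp) rfl rfl
  | succ t ih =>
    have hst := ch_split ih (f t)
    refine ch_congr hst ?_ rfl rfl
    rw [Finset.prod_range_succ]
    ring

/-- Prepending the pure kink steps with data `g i`, 0, 0, for `i < t`: no new cross term, and the bound
`K ≤ K₀ + ‖Φ‖² / (lam (1 - lam))` is preserved (the added mass telescopes, because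
`1 - ‖lam + (1 - lam) ω‖² = lam (1 - lam) ‖1 - ω‖²` for `‖ω‖ = 1`). -/
theorem ch_kinks {lam mu : ℝ} (hl0 : 0 < lam) (hl1 : lam < 1) {m : ℕ} [NeZero m] {ζ : ℂ}
    (hζ : ζ ^ m = 1) {L : ℕ} {Φ : ℂ} {K X K₀ : ℝ} (h : Ch lam mu m ζ L Φ K X)
    (hinv : K ≤ K₀ + ‖Φ‖ ^ 2 / (lam * (1 - lam))) (g : ℕ → ZMod m) (t : ℕ)
    (hg : ∀ i, i < t → (lam : ℂ) + (1 - (lam : ℂ)) * ph ζ (g i) ≠ 0) :
    ∃ K' : ℝ, Ch lam mu m ζ (L + t)
        (Φ / ∏ i ∈ Finset.range t, ((lam : ℂ) + (1 - (lam : ℂ)) * ph ζ (g i))) K' X ∧ K ≤ K' ∧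
      K' ≤ K₀ + ‖Φ / ∏ i ∈ Finset.range t, ((lam : ℂ) + (1 - (lam : ℂ)) * ph ζ (g i))‖ ^ 2 /
        (lam * (1 - lam)) := by
  induction t with
  | zero =>
    refine ⟨K, ch_congr h (by simp) rfl rfl, le_refl _, ?_⟩
    simpa using hinv
  | succ t ih =>
    obtain ⟨K1, hch, hK1, hK1b⟩ := ih (fun i hi => hg i (Nat.lt_succ_of_lt hi))
    have hΛ := hg t (Nat.lt_succ_self t)
    have hst := ch_kink hch (g t) hΛ
    have hΦ : Φ / (∏ i ∈ Finset.range t, ((lam : ℂ) + (1 - (lam : ℂ)) * ph ζ (g i)))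
          / ((lam : ℂ) + (1 - (lam : ℂ)) * ph ζ (g t))
        = Φ / ∏ i ∈ Finset.range (t + 1), ((lam : ℂ) + (1 - (lam : ℂ)) * ph ζ (g i)) := by
      rw [Finset.prod_range_succ, div_div]
    have hω : ‖ph ζ (g t)‖ = 1 := qp_norm_ph hζ (g t)
    have hid := gcb_norm_sq lam (ph ζ (g t)) hω
    have hll : 0 < lam * (1 - lam) := mul_pos hl0 (by linarith)
    rw [← hΦ]
    generalize Φ / (∏ i ∈ Finset.range t, ((lam : ℂ) + (1 - (lam : ℂ)) * ph ζ (g i))) = Ψ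
      at hch hK1b hst
    generalize (lam : ℂ) + (1 - (lam : ℂ)) * ph ζ (g t) = Λ at hΛ hst hid
    have hnorm : ‖Ψ‖ ^ 2 = ‖Λ‖ ^ 2 * ‖Ψ / Λ‖ ^ 2 := by
      rw [norm_div, div_pow, mul_div_cancel₀ _ (pow_ne_zero 2 (norm_ne_zero_iff.mpr hΛ))]
    refine ⟨K1 + ‖Ψ / Λ‖ ^ 2 * ‖1 - ph ζ (g t)‖ ^ 2, hst, ?_, ?_⟩
    · have h0 : 0 ≤ ‖Ψ / Λ‖ ^ 2 * ‖1 - ph ζ (g t)‖ ^ 2 := by positivity
      linarith
    · rw [hnorm, hid] at hK1b
      have e : (1 - lam * (1 - lam) * ‖1 - ph ζ (g t)‖ ^ 2) * ‖Ψ / Λ‖ ^ 2 / (lam * (1 - lam))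
          = ‖Ψ / Λ‖ ^ 2 / (lam * (1 - lam)) - ‖Ψ / Λ‖ ^ 2 * ‖1 - ph ζ (g t)‖ ^ 2 := by
        have hl : lam ≠ 0 := hl0.ne'
        have h1l : 1 - lam ≠ 0 := by
          intro h0
          linarith
        field_simp
      rw [e] at hK1b
      linarith

end Vale.Agent.H97.GC
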