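import Vale.Agent.H16.Quad.Phase

/-!
# Scalar chains of weighted phased steps (support for P058)

`Ch lam mu m ζ L Φ K X`: a chain of `L` steps `(k p, s p, s' p)`, `p < L`, with values `F p`
(`F L = 1`, `F 0 = Φ`) such that
`(mu ζ^(s p) + (1 - mu) ζ^(s' p)) F (p+1) = (lam + (1 - lam) ζ^(k p)) F p`,
kink mass `K = ∑ ‖F p‖² ‖1 - ζ^(k p)‖²` and cross term
`X = ∑ Re (conj (F p (1 - ζ^(k p))) ((ζ^(s p) - ζ^(s' p)) F (p+1)))`.
This is `BrG` of Vale/Agent/H16/Quad/Clock.lean with trivial register and weights `mu, 1 - mu`.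
-/

namespace Vale.Agent.H97.GC

open Vale.Agent.H16.Kite
open scoped BigOperators ComplexConjugate

/-- A scalar chain of length `L` with multiplier `Φ`, kink mass `K` and cross term `X`. -/
def Ch (lam mu : ℝ) (m : ℕ) (ζ : ℂ) (L : ℕ) (Φ : ℂ) (K X : ℝ) : Prop :=
  ∃ (k s s' : ℕ → ZMod m) (F : ℕ → ℂ), F 0 = Φ ∧ F L = 1 ∧
    (∀ p, p < L → ((mu : ℂ) * ph ζ (s p) + (1 - (mu : ℂ)) * ph ζ (s' p)) * F (p + 1)
        = ((lam : ℂ) + (1 - (lam : ℂ)) * ph ζ (k p)) * F p) ∧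
    (∑ p ∈ Finset.range L, ‖F p‖ ^ 2 * ‖1 - ph ζ (k p)‖ ^ 2 = K) ∧
    (∑ p ∈ Finset.range L, (conj (F p * (1 - ph ζ (k p))) *
        ((ph ζ (s p) - ph ζ (s' p)) * F (p + 1))).re = X)

section

variable {lam mu : ℝ} {m : ℕ} {ζ : ℂ}

theorem ch_congr {L : ℕ} {Φ Φ' : ℂ} {K K' X X' : ℝ} (h : Ch lam mu m ζ L Φ K X) (hΦ : Φ = Φ')
    (hK : K = K') (hX : X = X') : Ch lam mu m ζ L Φ' K' X' := by
  subst hΦ
  subst hK
  subst hX
  exact h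

theorem ch_nil (lam mu : ℝ) (m : ℕ) (ζ : ℂ) : Ch lam mu m ζ 0 1 0 0 :=
  ⟨fun _ => 0, fun _ => 0, fun _ => 0, fun _ => 1, rfl, rfl,
    fun p hp => absurd hp (Nat.not_lt_zero p), by simp, by simp⟩

/-- Prolonging a chain by one step at the beginning. -/
theorem ch_step {L : ℕ} {Φ : ℂ} {K X : ℝ} (h : Ch lam mu m ζ L Φ K X) (k₀ s₀ s₀' : ZMod m)
    (ν : ℂ)
    (hν : ((mu : ℂ) * ph ζ s₀ + (1 - (mu : ℂ)) * ph ζ s₀') * Φ
      = ((lam : ℂ) + (1 - (lam : ℂ)) * ph ζ k₀) * ν) :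
    Ch lam mu m ζ (L + 1) ν (K + ‖ν‖ ^ 2 * ‖1 - ph ζ k₀‖ ^ 2)
      (X + (conj (ν * (1 - ph ζ k₀)) * ((ph ζ s₀ - ph ζ s₀') * Φ)).re) := by
  obtain ⟨k, s, s', F, h0, hL, heq, hK, hX⟩ := h
  refine ⟨fun p => Nat.rec (motive := fun _ => ZMod m) k₀ (fun p _ => k p) p,
    fun p => Nat.rec (motive := fun _ => ZMod m) s₀ (fun p _ => s p) p,
    fun p => Nat.rec (motive := fun _ => ZMod m) s₀' (fun p _ => s' p) p,
    fun p => Nat.rec (motive := fun _ => ℂ) ν (fun p _ => F p) p, rfl, hL, ?_, ?_, ?_⟩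
  · intro p hp
    cases p with
    | zero =>
      show ((mu : ℂ) * ph ζ s₀ + (1 - (mu : ℂ)) * ph ζ s₀') * F 0
        = ((lam : ℂ) + (1 - (lam : ℂ)) * ph ζ k₀) * ν
      rw [h0]
      exact hν
    | succ p => exact heq p (by omega)
  · rw [Finset.sum_range_succ']
    show (∑ p ∈ Finset.range L, ‖F p‖ ^ 2 * ‖1 - ph ζ (k p)‖ ^ 2) + ‖ν‖ ^ 2 * ‖1 - ph ζ k₀‖ ^ 2
      = K + ‖ν‖ ^ 2 * ‖1 - ph ζ k₀‖ ^ 2
    rw [hK]
  · rw [Finset.sum_range_succ']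
    show (∑ p ∈ Finset.range L, (conj (F p * (1 - ph ζ (k p))) *
          ((ph ζ (s p) - ph ζ (s' p)) * F (p + 1))).re) +
        (conj (ν * (1 - ph ζ k₀)) * ((ph ζ s₀ - ph ζ s₀') * F 0)).re
      = X + (conj (ν * (1 - ph ζ k₀)) * ((ph ζ s₀ - ph ζ s₀') * Φ)).re
    rw [hX, h0]

variable [NeZero m]

/-- A waiting step. -/
theorem ch_pad_one {L : ℕ} {Φ : ℂ} {K X : ℝ} (h : Ch lam mu m ζ L Φ K X) :
    Ch lam mu m ζ (L + 1) Φ K X := by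
  have hst := ch_step h 0 0 0 Φ (by rw [ph_zero]; ring)
  refine ch_congr hst rfl ?_ ?_
  · rw [ph_zero]
    simp
  · rw [ph_zero]
    simp

/-- Waiting steps. -/
theorem ch_pad {L : ℕ} {Φ : ℂ} {K X : ℝ} (h : Ch lam mu m ζ L Φ K X) :
    ∀ w : ℕ, Ch lam mu m ζ (L + w) Φ K X := by
  intro w
  induction w with
  | zero => exact h
  | succ w ih => exact ch_pad_one ih

/-- A split step (no kink): the multiplier is multiplied by `mu + (1 - mu) ζ^j`. -/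
theorem ch_split {L : ℕ} {Φ : ℂ} {K X : ℝ} (h : Ch lam mu m ζ L Φ K X) (j : ZMod m) :
    Ch lam mu m ζ (L + 1) (((mu : ℂ) + (1 - (mu : ℂ)) * ph ζ j) * Φ) K X := by
  have hst := ch_step h 0 0 j (((mu : ℂ) + (1 - (mu : ℂ)) * ph ζ j) * Φ)
    (by rw [ph_zero]; ring)
  refine ch_congr hst rfl ?_ ?_
  · rw [ph_zero]
    simp
  · rw [ph_zero]
    simp

/-- A pure kink step: the multiplier is divided by `lam + (1 - lam) ζ^j`. -/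
theorem ch_kink {L : ℕ} {Φ : ℂ} {K X : ℝ} (h : Ch lam mu m ζ L Φ K X) (j : ZMod m)
    (hΛ : (lam : ℂ) + (1 - (lam : ℂ)) * ph ζ j ≠ 0) :
    Ch lam mu m ζ (L + 1) (Φ / ((lam : ℂ) + (1 - (lam : ℂ)) * ph ζ j))
      (K + ‖Φ / ((lam : ℂ) + (1 - (lam : ℂ)) * ph ζ j)‖ ^ 2 * ‖1 - ph ζ j‖ ^ 2) X := by
  have hst := ch_step h j 0 0 (Φ / ((lam : ℂ) + (1 - (lam : ℂ)) * ph ζ j))
    (by rw [ph_zero]; field_simp; ring)
  refine ch_congr hst rfl rfl ?_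
  simp

end

end Vale.Agent.H97.GC
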