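import Vale.Agent.H16.GN2.PhasePS

/-!
# Permutation structures from weighted phased structures in `2`-groups (support for P058)

A restatement of `ps_true_of_phase` (Vale/Agent/H16/GN2/PhasePS.lean) for `m = 2 ^ (n + 1)` and
a root `ζ` with `ζ ^ (2 ^ n) = -1`.
-/

namespace Vale.Agent.H97.GC

open Vale.Agent.H16.Kite
open scoped BigOperators ComplexConjugate

/-- A phased structure with weights `mu, 1 - mu` in a `2`-group, with kink mass `K > 0` and cross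
term `X`, gives a permutation structure in a `2`-group with cross ratio `X / K`. -/
theorem ps_of_phase {Ω : Type} [Fintype Ω] (lam mu : ℝ) (H : Subgroup (Equiv.Perm Ω))
    (hH : IsPGroup 2 H) (β δ : Equiv.Perm Ω) (hβ : β ∈ H) (hδ : δ ∈ H) (n : ℕ) (hn : 1 ≤ n)
    (ζ : ℂ) (hζ : ζ ^ (2 ^ n) = -1) (e e' k : Ω → ZMod (2 ^ (n + 1))) (W : Ω → ℂ)
    (hrel : ∀ x, (mu : ℂ) * (ph ζ (e x) * W (β x)) + (1 - (mu : ℂ)) * (ph ζ (e' x) * W (δ x))
      = ((lam : ℂ) + (1 - (lam : ℂ)) * ph ζ (k x)) * W x)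
    (K X : ℝ) (hK : ∑ x, ‖W x‖ ^ 2 * ‖1 - ph ζ (k x)‖ ^ 2 = K)
    (hX : ∑ x, (conj (W x * (1 - ph ζ (k x))) *
      (ph ζ (e x) * W (β x) - ph ζ (e' x) * W (δ x))).re = X)
    (hK0 : 0 < K) : PS True lam mu (X / K) := by
  have hζm : ζ ^ (2 ^ (n + 1)) = 1 := by
    rw [pow_succ, pow_mul, hζ]
    norm_num
  have hζ2 : ζ ^ 2 ≠ 1 := by
    intro h2
    obtain ⟨j, rfl⟩ : ∃ j, n = j + 1 := ⟨n - 1, by omega⟩
    rw [pow_succ, mul_comm, pow_mul, h2, one_pow] at hζ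
    norm_num at hζ
  refine ps_true_of_phase lam mu (X / K) H hH β δ hβ hδ (2 ^ (n + 1)) (n + 1) rfl ζ hζm hζ2
    e e' k W hrel ?_ ?_
  · rw [hK]
    exact hK0
  · rw [hK, hX]
    field_simp

end Vale.Agent.H97.GC
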