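import Mathlib

/-!
# A clock over a `2`-group of permutations (support for P058)

For permutations `c p` of `Ω` (`p : ZMod P`) the map `(x, p) ↦ (c p x, p + 1)` is a permutation
of `Ω × ZMod P`.  If all `c p` lie in a `2`-group `H` and `P = 2 ^ a`, these permutations lie in
a `2`-group (the wreath product of `H` with the cyclic group of order `2 ^ a`).

TASK GC-W.  Prove `exists_clock_group` (statement unchanged; helper lemmas with fresh names
starting `gcw_` inside this file).  Sketch: let `G` be the set of all permutations `σ` of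
`Ω × ZMod (2 ^ a)` for which there are `t : ZMod (2 ^ a)` and `c : ZMod (2 ^ a) → Equiv.Perm Ω`
with `c p ∈ H` for all `p` and `σ y = (c y.2 y.1, y.2 + t)` for all `y`.  It is a subgroup:
the product of the maps with data `(t, c)` and `(t', c')` has data `(t + t', fun p => c (p + t') *
c' p)`, the inverse of `(t, c)` has data `(-t, fun p => (c (p - t))⁻¹)`.  It is a `2`-group: for
`σ` with data `(t, c)` the power `σ ^ (2 ^ a)` has data `(0, c₁)` (the shift of `σ ^ j` is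
`j • t`, and `(2 ^ a) • t = 0` in `ZMod (2 ^ a)`), a map with data `(0, c₁)` has `j`-th power with
data `(0, fun p => c₁ p ^ j)`, and as `ZMod (2 ^ a)` is finite and `H` is a `2`-group there is `k`
with `c₁ p ^ (2 ^ k) = 1` for all `p` (take the sum of the exponents `k p` given by `hH`:
`g ^ 2 ^ k = 1` implies `g ^ 2 ^ (k + l) = 1`); so `σ ^ 2 ^ (a + k) = 1`.  `clockPerm` has data
`(1, c)`.
-/

namespace Vale.Agent.H97.GC

/-- The permutation `(x, p) ↦ (c p x, p + 1)` of `Ω × ZMod P`. -/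
def clockPerm {Ω : Type} (P : ℕ) (c : ZMod P → Equiv.Perm Ω) : Equiv.Perm (Ω × ZMod P) where
  toFun y := (c y.2 y.1, y.2 + 1)
  invFun y := ((c (y.2 - 1)).symm y.1, y.2 - 1)
  left_inv y := by simp
  right_inv y := by simp

theorem clockPerm_apply {Ω : Type} (P : ℕ) (c : ZMod P → Equiv.Perm Ω) (y : Ω × ZMod P) :
    clockPerm P c y = (c y.2 y.1, y.2 + 1) := rfl

/-- The data predicate: `σ` acts as `(x, p) ↦ (c p x, p + t)` with all `c p` in `H`. -/
def gcw_data {Ω : Type} (H : Subgroup (Equiv.Perm Ω)) (P : ℕ) (σ : Equiv.Perm (Ω × ZMod P))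
    (t : ZMod P) (c : ZMod P → Equiv.Perm Ω) : Prop :=
  (∀ p, c p ∈ H) ∧ ∀ y : Ω × ZMod P, σ y = (c y.2 y.1, y.2 + t)

theorem gcw_one {Ω : Type} (H : Subgroup (Equiv.Perm Ω)) (P : ℕ) :
    gcw_data H P 1 0 (fun _ => 1) := by
  refine ⟨fun _ => H.one_mem, fun y => ?_⟩
  simp

theorem gcw_mul {Ω : Type} (H : Subgroup (Equiv.Perm Ω)) (P : ℕ)
    {σ σ' : Equiv.Perm (Ω × ZMod P)} {t t' : ZMod P} {c c' : ZMod P → Equiv.Perm Ω}
    (h : gcw_data H P σ t c) (h' : gcw_data H P σ' t' c') :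
    gcw_data H P (σ * σ') (t' + t) (fun p => c (p + t') * c' p) := by
  refine ⟨fun p => H.mul_mem (h.1 _) (h'.1 _), fun y => ?_⟩
  rw [Equiv.Perm.mul_apply, h'.2 y, h.2]
  simp [add_assoc]

theorem gcw_inv {Ω : Type} (H : Subgroup (Equiv.Perm Ω)) (P : ℕ)
    {σ : Equiv.Perm (Ω × ZMod P)} {t : ZMod P} {c : ZMod P → Equiv.Perm Ω}
    (h : gcw_data H P σ t c) :
    gcw_data H P σ⁻¹ (-t) (fun p => (c (p + -t))⁻¹) := by
  refine ⟨fun p => H.inv_mem (h.1 _), fun y => ?_⟩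
  rw [Equiv.Perm.inv_eq_iff_eq, h.2]
  simp

/-- The subgroup of all permutations with some data. -/
def gcw_group {Ω : Type} (H : Subgroup (Equiv.Perm Ω)) (P : ℕ) :
    Subgroup (Equiv.Perm (Ω × ZMod P)) where
  carrier := {σ | ∃ t c, gcw_data H P σ t c}
  mul_mem' := by
    rintro σ σ' ⟨t, c, h⟩ ⟨t', c', h'⟩
    exact ⟨_, _, gcw_mul H P h h'⟩
  one_mem' := ⟨_, _, gcw_one H P⟩
  inv_mem' := by
    rintro σ ⟨t, c, h⟩
    exact ⟨_, _, gcw_inv H P h⟩

theorem gcw_pow {Ω : Type} (H : Subgroup (Equiv.Perm Ω)) (P : ℕ)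
    {σ : Equiv.Perm (Ω × ZMod P)} {t : ZMod P} {c : ZMod P → Equiv.Perm Ω}
    (h : gcw_data H P σ t c) (j : ℕ) :
    ∃ cj, gcw_data H P (σ ^ j) (j • t) cj := by
  induction j with
  | zero => exact ⟨_, by simpa using gcw_one H P⟩
  | succ j ih =>
    obtain ⟨cj, hj⟩ := ih
    have hm := gcw_mul H P hj h
    refine ⟨fun p => cj (p + t) * c p, ?_⟩
    rw [pow_succ, succ_nsmul, add_comm]
    exact hm

theorem gcw_pow_zero {Ω : Type} (P : ℕ)
    {τ : Equiv.Perm (Ω × ZMod P)} {c : ZMod P → Equiv.Perm Ω}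
    (h : ∀ y : Ω × ZMod P, τ y = (c y.2 y.1, y.2)) (j : ℕ) (y : Ω × ZMod P) :
    (τ ^ j) y = ((c y.2 ^ j) y.1, y.2) := by
  induction j generalizing y with
  | zero => simp
  | succ j ih =>
    rw [pow_succ, Equiv.Perm.mul_apply, h y, ih]
    simp [pow_succ]

theorem gcw_pow_two_le {M : Type} [Monoid M] {g : M} {m k : ℕ} (hg : g ^ 2 ^ m = 1)
    (hmk : m ≤ k) : g ^ 2 ^ k = 1 := by
  obtain ⟨l, rfl⟩ := Nat.exists_eq_add_of_le hmk
  rw [pow_add, pow_mul, hg, one_pow]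

/-- The clock permutations over a `2`-group lie in a `2`-group. -/
theorem exists_clock_group {Ω : Type} (H : Subgroup (Equiv.Perm Ω)) (hH : IsPGroup 2 H) (a : ℕ) :
    ∃ G : Subgroup (Equiv.Perm (Ω × ZMod (2 ^ a))), IsPGroup 2 G ∧
      ∀ c : ZMod (2 ^ a) → Equiv.Perm Ω, (∀ p, c p ∈ H) → clockPerm (2 ^ a) c ∈ G := by
  refine ⟨gcw_group H (2 ^ a), ?_, ?_⟩
  · rintro ⟨σ, t, c, h⟩
    obtain ⟨c1, h1⟩ := gcw_pow H (2 ^ a) h (2 ^ a)
    have hz : (2 ^ a) • t = 0 := by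
      rw [nsmul_eq_mul]
      have : ((2 ^ a : ℕ) : ZMod (2 ^ a)) = 0 := ZMod.natCast_self _
      rw [this, zero_mul]
    rw [hz] at h1
    have hk : ∀ p, ∃ k : ℕ, c1 p ^ 2 ^ k = 1 := by
      intro p
      obtain ⟨k, hk⟩ := hH ⟨c1 p, h1.1 p⟩
      refine ⟨k, ?_⟩
      have := congrArg Subtype.val hk
      simpa using this
    choose kf hkf using hk
    have : NeZero (2 ^ a) := ⟨pow_ne_zero _ two_ne_zero⟩
    refine ⟨a + Finset.univ.sum kf, ?_⟩
    apply Subtype.ext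
    rw [Subgroup.coe_pow, Subgroup.coe_one]
    show σ ^ 2 ^ (a + Finset.univ.sum kf) = 1
    rw [pow_add, pow_mul]
    ext1 y
    have h1' : ∀ y : Ω × ZMod (2 ^ a), (σ ^ 2 ^ a) y = (c1 y.2 y.1, y.2) := by
      intro y
      rw [h1.2 y, add_zero]
    rw [gcw_pow_zero (2 ^ a) h1' _ y]
    have : c1 y.2 ^ 2 ^ Finset.univ.sum kf = 1 :=
      gcw_pow_two_le (hkf y.2) (Finset.single_le_sum (fun _ _ => Nat.zero_le _)
        (Finset.mem_univ y.2))
    rw [this]
    simp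
  · intro c hc
    exact ⟨1, c, hc, fun y => clockPerm_apply _ c y⟩

end Vale.Agent.H97.GC
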