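import Vale.Agent.H97.GC.Chain
import Vale.Agent.H97.GC.Wreath
import Vale.Agent.H97.GC.PhasePS
import Vale.Agent.H16.GQ.WAch

/-!
# A scalar chain closed by a single-kink gadget (support for P058)

TASK GC-C.  Prove `ps_of_ch_wach` (statement unchanged; helper lemmas with fresh names starting
`gcc_` inside this file).  Black boxes: `exists_clock_group` (Wreath.lean), `ps_of_phase`
(PhasePS.lean, proved), `Ch` (Chain.lean), `WAch`, `sgn` (Vale/Agent/H16/GQ/WAch.lean,
KiteSigned.lean), `ph`, `ph_zero`, `ph_natCast` (KitePhase.lean).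

Data: from `hch` the steps `k s s' : ℕ → ZMod m` (`m = 2 ^ (n + 1)`) and `F : ℕ → ℂ` with
`F 0 = Φ`, `F L = 1`, `L = 2 ^ a - 1`; from `hw` the gadget `Ω, H, β, δ, e, e', x₁, W` with
`W x₁ = 1` and `mu (sgn (e x) W (β x)) + (1 - mu) (sgn (e' x) W (δ x)) = if x = x₁ then 1 / Φ
else W x`.  The case `a = 0` is impossible (`L = 0` gives `K = 0`).  Put `P = 2 ^ a`,
`Ω' = Ω × ZMod P`, and for `y = (x, p)`:
* `β' = clockPerm P (fun p => if p.val = L then β else 1)`, `δ'` likewise with `δ`
  (both in the `2`-group of `exists_clock_group`);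
* exponents: if `p.val = L`: `eβ y = if e x = 1 then (2 ^ n : ℕ) else 0` (so that
  `ph ζ (eβ y) = sgn (e x)`, because `ζ ^ (2 ^ n) = -1`), `eδ y` likewise with `e'`, `kk y = 0`;
  if `p.val < L` and `x = x₁`: `(kk y, eβ y, eδ y) = (k p.val, s p.val, s' p.val)`;
  if `p.val < L` and `x ≠ x₁`: all three are `0`;
* `W' y = if x = x₁ then F p.val / Φ else W x`.
Note `(p + 1).val = p.val + 1` if `p.val < L` and `p + 1 = 0` if `p.val = L`, and
`W' (x, 0) = W x` for ALL `x` (`F 0 / Φ = 1 = W x₁`).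
Relation (hypothesis `hrel` of `ps_of_phase`) at `y = (x, p)`:
* `p.val < L`, `x ≠ x₁`: `mu W x + (1 - mu) W x = W x`;
* `p.val < L`, `x = x₁`: the chain equation at `p.val` divided by `Φ`;
* `p.val = L`: the gadget equation at `x` (cast to `ℂ`), whose right side is
  `W x = W' y` if `x ≠ x₁` and `1 / Φ = F L / Φ = W' y` if `x = x₁`.
Sums: only the points `(x₁, p)` with `p.val < L` have `ph ζ (kk y) ≠ 1`, so by
`Fintype.sum_prod_type` and a re-indexing of `ZMod P` by `Finset.range P` (compare `qc3_sum_zmod`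
in Vale/Agent/H16/Quad/ClockClose.lean; the term at `p.val = L` vanishes since `kk = 0` there)
the kink mass is `K / Φ ^ 2` and the cross term is `X / Φ ^ 2`; conclude with
`ps_of_phase` (ratio `(X / Φ ^ 2) / (K / Φ ^ 2) = X / K`, `Φ ≠ 0`).
-/

namespace Vale.Agent.H97.GC

open Vale.Agent.H16.Kite
open scoped BigOperators ComplexConjugate

/-- Re-indexing a sum over `ZMod P` by the values in `Finset.range P`. -/
theorem gcc_sum_zmod {P : ℕ} [NeZero P] (g : ℕ → ℝ) :
    ∑ q : ZMod P, g q.val = ∑ i ∈ Finset.range P, g i := by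
  refine Finset.sum_bij (fun q _ => q.val) (fun q _ => Finset.mem_range.2 (ZMod.val_lt q))
    (fun q _ q' _ hqq => ZMod.val_injective P hqq) (fun i hi => ?_) (fun q _ => rfl)
  refine ⟨(i : ZMod P), Finset.mem_univ _, ?_⟩
  rw [ZMod.val_natCast, Nat.mod_eq_of_lt (Finset.mem_range.1 hi)]

/-- The successor of the last element of `ZMod P` is `0`. -/
theorem gcc_last {P L : ℕ} [NeZero P] (hP : P = L + 1) (q : ZMod P) (hq : q.val = L) :
    q + 1 = 0 := by
  have h1 : ((q.val + 1 : ℕ) : ZMod P) = 0 := by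
    rw [ZMod.natCast_eq_zero_iff, hq]
    exact dvd_of_eq hP
  rw [Nat.cast_add, ZMod.natCast_zmod_val, Nat.cast_one] at h1
  exact h1

/-- The value of the successor of an element of `ZMod P` other than the last one. -/
theorem gcc_succ {P L : ℕ} [NeZero P] (hP : P = L + 1) (q : ZMod P) (hq : q.val ≠ L) :
    (q + 1).val = q.val + 1 := by
  have hlt : q.val < P := ZMod.val_lt q
  have h2 : ((q.val + 1 : ℕ) : ZMod P) = q + 1 := by
    rw [Nat.cast_add, ZMod.natCast_zmod_val, Nat.cast_one]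
  rw [← h2, ZMod.val_natCast, Nat.mod_eq_of_lt (by omega)]

/-- The phase of the half period is the sign. -/
theorem gcc_ph_sgn (n : ℕ) {ζ : ℂ} (hζ : ζ ^ (2 ^ n) = -1) (i : ZMod 2) :
    ph ζ (if i = 1 then ((2 ^ n : ℕ) : ZMod (2 ^ (n + 1))) else 0) = ((sgn i : ℝ) : ℂ) := by
  have hζm : ζ ^ (2 ^ (n + 1)) = 1 := by
    rw [pow_succ, pow_mul, hζ]
    norm_num
  rcases zmod2_cases i with rfl | rfl
  · have h01 : (0 : ZMod 2) ≠ 1 := by decide
    rw [if_neg h01, ph_zero, sgn_zero]
    norm_num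
  · rw [if_pos rfl, ph_natCast hζm, hζ, sgn_one]
    norm_num

/-- A chain of length `2 ^ a - 1` with real multiplier `Φ ≠ 0`, kink mass `K > 0` and cross term
`X`, together with a weighted single-kink structure with kink value `1 / Φ`, gives a permutation
structure in a `2`-group with cross ratio `X / K`. -/
theorem ps_of_ch_wach {lam mu : ℝ} (n a : ℕ) (hn : 1 ≤ n) {ζ : ℂ} (hζ : ζ ^ (2 ^ n) = -1)
    {Φ K X p : ℝ} (hch : Ch lam mu (2 ^ (n + 1)) ζ (2 ^ a - 1) (Φ : ℂ) K X) (hK : 0 < K)
    (hΦ : Φ ≠ 0) (hw : WAch mu (1 / Φ) p) : PS True lam mu (X / K) := by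
  classical
  obtain ⟨k, s, s', F, hF0, hFL, hchain, hKsum, hXsum⟩ := hch
  obtain ⟨Ω, hfin, hdec, H, β, δ, e, e', x₁, W, hH, hβ, hδ, hW1, _, hgad⟩ := hw
  have hL : 0 < 2 ^ a - 1 := by
    rcases Nat.eq_zero_or_pos (2 ^ a - 1) with h0 | h0
    · rw [h0, Finset.sum_range_zero] at hKsum
      linarith
    · exact h0
  obtain ⟨L, hLdef⟩ : ∃ L : ℕ, L = 2 ^ a - 1 := ⟨_, rfl⟩
  rw [← hLdef] at hFL hchain hKsum hXsum hL
  have hP : 2 ^ a = L + 1 := by omega
  have hΦc : (Φ : ℂ) ≠ 0 := Complex.ofReal_ne_zero.2 hΦ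
  obtain ⟨G, hG, hclock⟩ := exists_clock_group H hH a
  let cβ : ZMod (2 ^ a) → Equiv.Perm Ω := fun q => if q.val = L then β else 1
  let cδ : ZMod (2 ^ a) → Equiv.Perm Ω := fun q => if q.val = L then δ else 1
  have hcβ : ∀ q, cβ q ∈ H := by
    intro q
    show (if q.val = L then β else 1) ∈ H
    split_ifs
    · exact hβ
    · exact H.one_mem
  have hcδ : ∀ q, cδ q ∈ H := by
    intro q
    show (if q.val = L then δ else 1) ∈ H
    split_ifs
    · exact hδ
    · exact H.one_mem
  let kk : Ω × ZMod (2 ^ a) → ZMod (2 ^ (n + 1)) := fun y =>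
    if y.2.val = L then 0 else if y.1 = x₁ then k y.2.val else 0
  let eβ : Ω × ZMod (2 ^ a) → ZMod (2 ^ (n + 1)) := fun y =>
    if y.2.val = L then (if e y.1 = 1 then ((2 ^ n : ℕ) : ZMod (2 ^ (n + 1))) else 0)
    else if y.1 = x₁ then s y.2.val else 0
  let eδ : Ω × ZMod (2 ^ a) → ZMod (2 ^ (n + 1)) := fun y =>
    if y.2.val = L then (if e' y.1 = 1 then ((2 ^ n : ℕ) : ZMod (2 ^ (n + 1))) else 0)
    else if y.1 = x₁ then s' y.2.val else 0
  let W' : Ω × ZMod (2 ^ a) → ℂ := fun y =>
    if y.1 = x₁ then F y.2.val / (Φ : ℂ) else ((W y.1 : ℝ) : ℂ)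
  have hW0 : ∀ z : Ω, W' (z, 0) = ((W z : ℝ) : ℂ) := by
    intro z
    show (if z = x₁ then F (0 : ZMod (2 ^ a)).val / (Φ : ℂ) else ((W z : ℝ) : ℂ)) = ((W z : ℝ) : ℂ)
    by_cases hz : z = x₁
    · rw [if_pos hz, ZMod.val_zero, hF0, hz, hW1, div_self hΦc]
      norm_num
    · rw [if_neg hz]
  have hrel : ∀ y, (mu : ℂ) * (ph ζ (eβ y) * W' (clockPerm (2 ^ a) cβ y))
      + (1 - (mu : ℂ)) * (ph ζ (eδ y) * W' (clockPerm (2 ^ a) cδ y))
      = ((lam : ℂ) + (1 - (lam : ℂ)) * ph ζ (kk y)) * W' y := by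
    rintro ⟨x, q⟩
    rw [clockPerm_apply, clockPerm_apply]
    by_cases hq : q.val = L
    · have hq1 : q + 1 = 0 := gcc_last hP q hq
      have hkk : kk (x, q) = 0 := if_pos hq
      have heβ : eβ (x, q) = if e x = 1 then ((2 ^ n : ℕ) : ZMod (2 ^ (n + 1))) else 0 :=
        if_pos hq
      have heδ : eδ (x, q) = if e' x = 1 then ((2 ^ n : ℕ) : ZMod (2 ^ (n + 1))) else 0 :=
        if_pos hq
      have hcb : cβ q = β := if_pos hq
      have hcd : cδ q = δ := if_pos hq
      show (mu : ℂ) * (ph ζ (eβ (x, q)) * W' (cβ q x, q + 1))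
        + (1 - (mu : ℂ)) * (ph ζ (eδ (x, q)) * W' (cδ q x, q + 1))
        = ((lam : ℂ) + (1 - (lam : ℂ)) * ph ζ (kk (x, q))) * W' (x, q)
      rw [hkk, heβ, heδ, hcb, hcd, hq1, hW0, hW0, gcc_ph_sgn n hζ, gcc_ph_sgn n hζ, ph_zero]
      have hg := congrArg (fun r : ℝ => (r : ℂ)) (hgad x)
      have hWx : W' (x, q) = ((if x = x₁ then 1 / Φ else W x : ℝ) : ℂ) := by
        show (if x = x₁ then F q.val / (Φ : ℂ) else ((W x : ℝ) : ℂ))
          = ((if x = x₁ then 1 / Φ else W x : ℝ) : ℂ)
        by_cases hx : x = x₁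
        · rw [if_pos hx, if_pos hx, hq, hFL]
          push_cast
          rfl
        · rw [if_neg hx, if_neg hx]
      rw [hWx]
      simp only [Complex.ofReal_add, Complex.ofReal_mul, Complex.ofReal_sub,
        Complex.ofReal_one] at hg
      rw [← hg]
      ring
    · have hlt : q.val < L := by
        have := ZMod.val_lt q
        omega
      have hq1 : (q + 1).val = q.val + 1 := gcc_succ hP q hq
      have hcb : cβ q = 1 := if_neg hq
      have hcd : cδ q = 1 := if_neg hq
      show (mu : ℂ) * (ph ζ (eβ (x, q)) * W' (cβ q x, q + 1))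
        + (1 - (mu : ℂ)) * (ph ζ (eδ (x, q)) * W' (cδ q x, q + 1))
        = ((lam : ℂ) + (1 - (lam : ℂ)) * ph ζ (kk (x, q))) * W' (x, q)
      rw [hcb, hcd, Equiv.Perm.one_apply]
      by_cases hx : x = x₁
      · have hkk : kk (x, q) = k q.val := by
          show (if q.val = L then (0 : ZMod (2 ^ (n + 1))) else if x = x₁ then k q.val else 0)
            = k q.val
          rw [if_neg hq, if_pos hx]
        have heβ : eβ (x, q) = s q.val := by
          show (if q.val = L then (if e x = 1 then ((2 ^ n : ℕ) : ZMod (2 ^ (n + 1))) else 0)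
            else if x = x₁ then s q.val else 0) = s q.val
          rw [if_neg hq, if_pos hx]
        have heδ : eδ (x, q) = s' q.val := by
          show (if q.val = L then (if e' x = 1 then ((2 ^ n : ℕ) : ZMod (2 ^ (n + 1))) else 0)
            else if x = x₁ then s' q.val else 0) = s' q.val
          rw [if_neg hq, if_pos hx]
        have hW1' : W' (x, q + 1) = F (q.val + 1) / (Φ : ℂ) := by
          show (if x = x₁ then F (q + 1).val / (Φ : ℂ) else ((W x : ℝ) : ℂ))
            = F (q.val + 1) / (Φ : ℂ)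
          rw [if_pos hx, hq1]
        have hW2' : W' (x, q) = F q.val / (Φ : ℂ) := by
          show (if x = x₁ then F q.val / (Φ : ℂ) else ((W x : ℝ) : ℂ)) = F q.val / (Φ : ℂ)
          rw [if_pos hx]
        rw [hkk, heβ, heδ, hW1', hW2']
        have hc := hchain q.val hlt
        linear_combination (1 / (Φ : ℂ)) * hc
      · have hkk : kk (x, q) = 0 := by
          show (if q.val = L then (0 : ZMod (2 ^ (n + 1))) else if x = x₁ then k q.val else 0)
            = 0
          rw [if_neg hq, if_neg hx]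
        have heβ : eβ (x, q) = 0 := by
          show (if q.val = L then (if e x = 1 then ((2 ^ n : ℕ) : ZMod (2 ^ (n + 1))) else 0)
            else if x = x₁ then s q.val else 0) = 0
          rw [if_neg hq, if_neg hx]
        have heδ : eδ (x, q) = 0 := by
          show (if q.val = L then (if e' x = 1 then ((2 ^ n : ℕ) : ZMod (2 ^ (n + 1))) else 0)
            else if x = x₁ then s' q.val else 0) = 0
          rw [if_neg hq, if_neg hx]
        have hW1' : W' (x, q + 1) = ((W x : ℝ) : ℂ) := by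
          show (if x = x₁ then F (q + 1).val / (Φ : ℂ) else ((W x : ℝ) : ℂ)) = ((W x : ℝ) : ℂ)
          rw [if_neg hx]
        have hW2' : W' (x, q) = ((W x : ℝ) : ℂ) := by
          show (if x = x₁ then F q.val / (Φ : ℂ) else ((W x : ℝ) : ℂ)) = ((W x : ℝ) : ℂ)
          rw [if_neg hx]
        rw [hkk, heβ, heδ, hW1', hW2', ph_zero]
        ring
  -- the kink mass
  have hKK : ∑ y, ‖W' y‖ ^ 2 * ‖1 - ph ζ (kk y)‖ ^ 2 = K / Φ ^ 2 := by
    rw [Fintype.sum_prod_type, Finset.sum_eq_single x₁]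
    · have e1 : ∀ q : ZMod (2 ^ a), ‖W' (x₁, q)‖ ^ 2 * ‖1 - ph ζ (kk (x₁, q))‖ ^ 2
          = (fun i : ℕ => if i = L then 0 else ‖F i‖ ^ 2 * ‖1 - ph ζ (k i)‖ ^ 2 / Φ ^ 2) q.val := by
        intro q
        show ‖W' (x₁, q)‖ ^ 2 * ‖1 - ph ζ (kk (x₁, q))‖ ^ 2
          = if q.val = L then 0 else ‖F q.val‖ ^ 2 * ‖1 - ph ζ (k q.val)‖ ^ 2 / Φ ^ 2
        by_cases hq : q.val = L
        · have hkk : kk (x₁, q) = 0 := if_pos hq
          rw [if_pos hq, hkk, ph_zero]
          simp
        · have hkk : kk (x₁, q) = k q.val := by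
            show (if q.val = L then (0 : ZMod (2 ^ (n + 1))) else if x₁ = x₁ then k q.val else 0)
              = k q.val
            rw [if_neg hq, if_pos rfl]
          have hW2' : W' (x₁, q) = F q.val / (Φ : ℂ) := by
            show (if x₁ = x₁ then F q.val / (Φ : ℂ) else ((W x₁ : ℝ) : ℂ)) = F q.val / (Φ : ℂ)
            rw [if_pos rfl]
          rw [if_neg hq, hkk, hW2', norm_div, Complex.norm_real, Real.norm_eq_abs, div_pow,
            sq_abs]
          ring
      rw [Finset.sum_congr rfl (fun q _ => e1 q)]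
      refine (gcc_sum_zmod (fun i : ℕ => if i = L then 0
        else ‖F i‖ ^ 2 * ‖1 - ph ζ (k i)‖ ^ 2 / Φ ^ 2)).trans ?_
      rw [hP, Finset.sum_range_succ, if_pos rfl, add_zero, ← hKsum, Finset.sum_div]
      refine Finset.sum_congr rfl (fun i hi => ?_)
      rw [if_neg (Nat.ne_of_lt (Finset.mem_range.1 hi))]
    · intro x _ hx
      refine Finset.sum_eq_zero (fun q _ => ?_)
      have hkk : kk (x, q) = 0 := by
        show (if q.val = L then (0 : ZMod (2 ^ (n + 1))) else if x = x₁ then k q.val else 0) = 0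
        by_cases hq : q.val = L
        · rw [if_pos hq]
        · rw [if_neg hq, if_neg hx]
      rw [hkk, ph_zero]
      simp
    · intro h
      exact absurd (Finset.mem_univ x₁) h
  -- the cross term
  have hXX : ∑ y, (conj (W' y * (1 - ph ζ (kk y))) *
      (ph ζ (eβ y) * W' (clockPerm (2 ^ a) cβ y) - ph ζ (eδ y) * W' (clockPerm (2 ^ a) cδ y))).re
      = X / Φ ^ 2 := by
    rw [Fintype.sum_prod_type, Finset.sum_eq_single x₁]
    · have e1 : ∀ q : ZMod (2 ^ a), (conj (W' (x₁, q) * (1 - ph ζ (kk (x₁, q)))) *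
          (ph ζ (eβ (x₁, q)) * W' (clockPerm (2 ^ a) cβ (x₁, q))
            - ph ζ (eδ (x₁, q)) * W' (clockPerm (2 ^ a) cδ (x₁, q)))).re
          = (fun i : ℕ => if i = L then 0 else (conj (F i * (1 - ph ζ (k i))) *
              ((ph ζ (s i) - ph ζ (s' i)) * F (i + 1))).re / Φ ^ 2) q.val := by
        intro q
        show (conj (W' (x₁, q) * (1 - ph ζ (kk (x₁, q)))) *
          (ph ζ (eβ (x₁, q)) * W' (clockPerm (2 ^ a) cβ (x₁, q))
            - ph ζ (eδ (x₁, q)) * W' (clockPerm (2 ^ a) cδ (x₁, q)))).re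
          = if q.val = L then 0 else (conj (F q.val * (1 - ph ζ (k q.val))) *
              ((ph ζ (s q.val) - ph ζ (s' q.val)) * F (q.val + 1))).re / Φ ^ 2
        by_cases hq : q.val = L
        · have hkk : kk (x₁, q) = 0 := if_pos hq
          rw [if_pos hq, hkk, ph_zero]
          simp
        · have hq1 : (q + 1).val = q.val + 1 := gcc_succ hP q hq
          have hcb : cβ q = 1 := if_neg hq
          have hcd : cδ q = 1 := if_neg hq
          have hkk : kk (x₁, q) = k q.val := by
            show (if q.val = L then (0 : ZMod (2 ^ (n + 1))) else if x₁ = x₁ then k q.val else 0)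
              = k q.val
            rw [if_neg hq, if_pos rfl]
          have heβ : eβ (x₁, q) = s q.val := by
            show (if q.val = L then (if e x₁ = 1 then ((2 ^ n : ℕ) : ZMod (2 ^ (n + 1))) else 0)
              else if x₁ = x₁ then s q.val else 0) = s q.val
            rw [if_neg hq, if_pos rfl]
          have heδ : eδ (x₁, q) = s' q.val := by
            show (if q.val = L then (if e' x₁ = 1 then ((2 ^ n : ℕ) : ZMod (2 ^ (n + 1))) else 0)
              else if x₁ = x₁ then s' q.val else 0) = s' q.val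
            rw [if_neg hq, if_pos rfl]
          have hW2' : W' (x₁, q) = F q.val / (Φ : ℂ) := by
            show (if x₁ = x₁ then F q.val / (Φ : ℂ) else ((W x₁ : ℝ) : ℂ)) = F q.val / (Φ : ℂ)
            rw [if_pos rfl]
          have hWb : W' (clockPerm (2 ^ a) cβ (x₁, q)) = F (q.val + 1) / (Φ : ℂ) := by
            rw [clockPerm_apply]
            show W' (cβ q x₁, q + 1) = F (q.val + 1) / (Φ : ℂ)
            rw [hcb, Equiv.Perm.one_apply]
            show (if x₁ = x₁ then F (q + 1).val / (Φ : ℂ) else ((W x₁ : ℝ) : ℂ))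
              = F (q.val + 1) / (Φ : ℂ)
            rw [if_pos rfl, hq1]
          have hWd : W' (clockPerm (2 ^ a) cδ (x₁, q)) = F (q.val + 1) / (Φ : ℂ) := by
            rw [clockPerm_apply]
            show W' (cδ q x₁, q + 1) = F (q.val + 1) / (Φ : ℂ)
            rw [hcd, Equiv.Perm.one_apply]
            show (if x₁ = x₁ then F (q + 1).val / (Φ : ℂ) else ((W x₁ : ℝ) : ℂ))
              = F (q.val + 1) / (Φ : ℂ)
            rw [if_pos rfl, hq1]
          rw [if_neg hq, hkk, heβ, heδ, hW2', hWb, hWd]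
          have hcj : conj (F q.val / (Φ : ℂ) * (1 - ph ζ (k q.val)))
              = conj (F q.val * (1 - ph ζ (k q.val))) / (Φ : ℂ) := by
            rw [map_mul, map_mul, map_div₀, Complex.conj_ofReal]
            ring
          have hprod : conj (F q.val / (Φ : ℂ) * (1 - ph ζ (k q.val))) *
              (ph ζ (s q.val) * (F (q.val + 1) / (Φ : ℂ))
                - ph ζ (s' q.val) * (F (q.val + 1) / (Φ : ℂ)))
              = (((1 / Φ ^ 2 : ℝ)) : ℂ) * (conj (F q.val * (1 - ph ζ (k q.val))) *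
                  ((ph ζ (s q.val) - ph ζ (s' q.val)) * F (q.val + 1))) := by
            rw [hcj]
            push_cast
            field_simp
          rw [hprod, Complex.re_ofReal_mul]
          ring
      rw [Finset.sum_congr rfl (fun q _ => e1 q)]
      refine (gcc_sum_zmod (fun i : ℕ => if i = L then 0
        else (conj (F i * (1 - ph ζ (k i))) *
          ((ph ζ (s i) - ph ζ (s' i)) * F (i + 1))).re / Φ ^ 2)).trans ?_
      rw [hP, Finset.sum_range_succ, if_pos rfl, add_zero, ← hXsum, Finset.sum_div]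
      refine Finset.sum_congr rfl (fun i hi => ?_)
      rw [if_neg (Nat.ne_of_lt (Finset.mem_range.1 hi))]
    · intro x _ hx
      refine Finset.sum_eq_zero (fun q _ => ?_)
      have hkk : kk (x, q) = 0 := by
        show (if q.val = L then (0 : ZMod (2 ^ (n + 1))) else if x = x₁ then k q.val else 0) = 0
        by_cases hq : q.val = L
        · rw [if_pos hq]
        · rw [if_neg hq, if_neg hx]
      rw [hkk, ph_zero]
      simp
    · intro h
      exact absurd (Finset.mem_univ x₁) h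
  have hKpos : 0 < K / Φ ^ 2 := div_pos hK (by positivity)
  have key := ps_of_phase lam mu G hG (clockPerm (2 ^ a) cβ) (clockPerm (2 ^ a) cδ)
    (hclock cβ hcβ) (hclock cδ hcδ) n hn ζ hζ eβ eδ kk W' hrel (K / Φ ^ 2) (X / Φ ^ 2) hKK hXX
    hKpos
  have hratio : X / Φ ^ 2 / (K / Φ ^ 2) = X / K := by
    field_simp
  rw [hratio] at key
  exact key

end Vale.Agent.H97.GC
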