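import Vale.Agent.H97.GC.Norm
import Vale.Agent.H16.KitePhase

/-!
# The products of the conjugate factors (support for P058)

TASK GC-P.  Prove the five statements (unchanged; helper lemmas with fresh names starting `gcp_`
inside this file).  Black boxes: `prod_strip` (Norm.lean), `ph_natCast` (KitePhase.lean:
`ph ζ ((j : ℕ) : ZMod m) = ζ ^ j` when `ζ ^ m = 1`).  Here `m = 2 ^ (n + 1)` and
`ζ ^ m = (ζ ^ (2 ^ n)) ^ 2 = 1`, `‖ζ‖ = 1`.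
* `odd_pow_ne`: ` (ζ ^ a) ^ (2 ^ n) = (ζ ^ (2 ^ n)) ^ a = (-1) ^ a = -1` (`a` odd), whereas
  ` (±1) ^ (2 ^ n) = 1` (`n ≥ 1`).
* `quarter_pow_ne`: `I := ζ ^ (2 ^ (n - 1))` has `I ^ 2 = -1`; `ζ ^ (3 · 2 ^ (n - 1)) = I ^ 3`.
* `lam_add_ne_zero`: if `lam + (1 - lam) ω = 0` then `ω = -lam / (1 - lam)` is real, and
  `‖ω‖ = 1` gives `lam = 1 - lam`, `ω = -1`.
* `i_pair`: with `I` as above the two phases are `I` and `I ^ 3 = -I`, and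
  ` (x + (1 - x) I) (x - (1 - x) I) = x ^ 2 + (1 - x) ^ 2`.
* `odd_prod`: `z := ζ ^ a` has `z ^ (2 ^ n) = -1`; `prod_strip n hn z x (1 - x)`; the phases are
  `ph ζ ((a * (2 i + 3) : ℕ) : ZMod m) = z ^ (2 i + 3)`; `z ^ (2 ^ (n + 1) - 1) = conj z`
  (`z * z ^ (2 ^ (n + 1) - 1) = 1 = z * conj z`), so the first two factors are
  ` (x + (1 - x) z) * conj (x + (1 - x) z) = ‖x + (1 - x) z‖ ^ 2` (`Complex.mul_conj`).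
-/

namespace Vale.Agent.H97.GC

open Vale.Agent.H16.Kite
open scoped BigOperators ComplexConjugate

theorem gcp_pow_m (n : ℕ) (ζ : ℂ) (hζ : ζ ^ (2 ^ n) = -1) : ζ ^ (2 ^ (n + 1)) = 1 := by
  rw [pow_succ, pow_mul, hζ]; norm_num

theorem gcp_odd_pow (n : ℕ) (ζ : ℂ) (hζ : ζ ^ (2 ^ n) = -1) (a : ℕ) (ha : Odd a) :
    (ζ ^ a) ^ (2 ^ n) = -1 := by
  rw [← pow_mul, mul_comm, pow_mul, hζ, ha.neg_one_pow]

theorem gcp_even_two_pow (n : ℕ) (hn : 1 ≤ n) : Even (2 ^ n) := by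
  obtain ⟨k, rfl⟩ : ∃ k, n = k + 1 := ⟨n - 1, by omega⟩
  exact ⟨2 ^ k, by ring⟩

theorem gcp_quarter (n : ℕ) (hn : 1 ≤ n) (ζ : ℂ) (hζ : ζ ^ (2 ^ n) = -1) :
    (ζ ^ (2 ^ (n - 1))) ^ 2 = -1 := by
  obtain ⟨k, rfl⟩ : ∃ k, n = k + 1 := ⟨n - 1, by omega⟩
  rw [← pow_mul]
  simpa [pow_succ] using hζ

theorem gcp_quarter3 (n : ℕ) (hn : 1 ≤ n) (ζ : ℂ) (hζ : ζ ^ (2 ^ n) = -1) :
    ζ ^ (3 * 2 ^ (n - 1)) = -(ζ ^ (2 ^ (n - 1))) := by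
  have h := gcp_quarter n hn ζ hζ
  have h3 : ζ ^ (3 * 2 ^ (n - 1)) = (ζ ^ (2 ^ (n - 1))) ^ 2 * ζ ^ (2 ^ (n - 1)) := by
    rw [← pow_succ, ← pow_mul, mul_comm]
  rw [h3, h]; ring

theorem gcp_norm_one (n : ℕ) (z : ℂ) (hz : z ^ (2 ^ n) = -1) : ‖z‖ = 1 := by
  have h1 : ‖z‖ ^ (2 ^ n) = 1 := by
    rw [← norm_pow, hz]; simp
  exact (pow_eq_one_iff_of_nonneg (norm_nonneg z) (by positivity)).mp h1

theorem gcp_conj (n : ℕ) (z : ℂ) (hz : z ^ (2 ^ n) = -1) :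
    z ^ (2 ^ (n + 1) - 1) = conj z := by
  have hz0 : z ≠ 0 := by
    intro h0
    have := gcp_norm_one n z hz
    rw [h0] at this; simp at this
  have h1 : z * z ^ (2 ^ (n + 1) - 1) = 1 := by
    rw [← pow_succ']
    have hpos : 1 ≤ 2 ^ (n + 1) := Nat.one_le_two_pow
    rw [Nat.sub_add_cancel hpos]
    exact gcp_pow_m n z hz
  have h2 : z * conj z = 1 := by
    rw [Complex.mul_conj, Complex.normSq_eq_norm_sq, gcp_norm_one n z hz]; simp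
  exact mul_left_cancel₀ hz0 (h1.trans h2.symm)

/-- For `ζ^(2^n) = -1`, `n ≥ 1`, `a` odd and real `x`: the factor `x + (1 - x) ζ^a`, its complex
conjugate and the factors at the other odd multiples `a (2 i + 3)`, `i < 2^n - 2`, of `a`
multiply to the rational expression `x^(2^n) + (1 - x)^(2^n)`. -/
theorem odd_prod (x : ℝ) (n : ℕ) (hn : 1 ≤ n) (ζ : ℂ) (hζ : ζ ^ (2 ^ n) = -1) (a : ℕ)
    (ha : Odd a) :
    ((‖(x : ℂ) + (1 - (x : ℂ)) * ζ ^ a‖ ^ 2 : ℝ) : ℂ) *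
      ∏ i ∈ Finset.range (2 ^ n - 2),
        ((x : ℂ) + (1 - (x : ℂ)) * ph ζ (((a * (2 * i + 3) : ℕ)) : ZMod (2 ^ (n + 1))))
      = ((x ^ (2 ^ n) + (1 - x) ^ (2 ^ n) : ℝ) : ℂ) := by
  have hm : ζ ^ (2 ^ (n + 1)) = 1 := gcp_pow_m n ζ hζ
  have hz : (ζ ^ a) ^ (2 ^ n) = -1 := gcp_odd_pow n ζ hζ a ha
  have hstrip := prod_strip n hn (ζ ^ a) (x : ℂ) (1 - (x : ℂ)) hz
  have hprod : ∏ i ∈ Finset.range (2 ^ n - 2),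
        ((x : ℂ) + (1 - (x : ℂ)) * ph ζ (((a * (2 * i + 3) : ℕ)) : ZMod (2 ^ (n + 1))))
      = ∏ i ∈ Finset.range (2 ^ n - 2), ((x : ℂ) + (1 - (x : ℂ)) * (ζ ^ a) ^ (2 * i + 3)) := by
    refine Finset.prod_congr rfl (fun i _ => ?_)
    rw [ph_natCast hm, pow_mul]
  have hfirst : ((‖(x : ℂ) + (1 - (x : ℂ)) * ζ ^ a‖ ^ 2 : ℝ) : ℂ)
      = ((x : ℂ) + (1 - (x : ℂ)) * ζ ^ a) *
        ((x : ℂ) + (1 - (x : ℂ)) * (ζ ^ a) ^ (2 ^ (n + 1) - 1)) := by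
    rw [gcp_conj n (ζ ^ a) hz]
    have hc : (x : ℂ) + (1 - (x : ℂ)) * conj (ζ ^ a)
        = conj ((x : ℂ) + (1 - (x : ℂ)) * ζ ^ a) := by
      simp [map_add, map_mul, map_sub]
    rw [hc, Complex.mul_conj, Complex.normSq_eq_norm_sq]
  rw [hprod, hfirst, hstrip]
  push_cast
  ring

/-- The pair of factors at the two primitive fourth roots of unity `ζ^(2^(n-1))`,
`ζ^(3·2^(n-1))`. -/
theorem i_pair (x : ℝ) (n : ℕ) (hn : 1 ≤ n) (ζ : ℂ) (hζ : ζ ^ (2 ^ n) = -1) :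
    ((x : ℂ) + (1 - (x : ℂ)) * ph ζ (((2 ^ (n - 1) : ℕ)) : ZMod (2 ^ (n + 1)))) *
      ((x : ℂ) + (1 - (x : ℂ)) * ph ζ (((3 * 2 ^ (n - 1) : ℕ)) : ZMod (2 ^ (n + 1))))
      = ((x ^ 2 + (1 - x) ^ 2 : ℝ) : ℂ) := by
  have hm : ζ ^ (2 ^ (n + 1)) = 1 := gcp_pow_m n ζ hζ
  have hq := gcp_quarter n hn ζ hζ
  rw [ph_natCast hm, ph_natCast hm, gcp_quarter3 n hn ζ hζ]
  push_cast
  have : ((x : ℂ) + (1 - (x : ℂ)) * ζ ^ (2 ^ (n - 1))) *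
      ((x : ℂ) + (1 - (x : ℂ)) * -(ζ ^ (2 ^ (n - 1))))
      = (x : ℂ) ^ 2 - (1 - (x : ℂ)) ^ 2 * (ζ ^ (2 ^ (n - 1))) ^ 2 := by ring
  rw [this, hq]; ring

/-- `lam + (1 - lam) ω ≠ 0` for `0 < lam < 1`, `‖ω‖ = 1`, `ω ≠ -1`. -/
theorem lam_add_ne_zero (lam : ℝ) (hl0 : 0 < lam) (hl1 : lam < 1) (ω : ℂ) (hω : ‖ω‖ = 1)
    (hω1 : ω ≠ -1) : (lam : ℂ) + (1 - (lam : ℂ)) * ω ≠ 0 := by
  intro h
  have h1 : ((1 - lam : ℝ) : ℂ) * ω = -((lam : ℝ) : ℂ) := by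
    push_cast
    linear_combination h
  have hn : ‖((1 - lam : ℝ) : ℂ) * ω‖ = ‖-((lam : ℝ) : ℂ)‖ := by rw [h1]
  rw [norm_mul, hω, mul_one, norm_neg, Complex.norm_real, Complex.norm_real,
    Real.norm_of_nonneg (by linarith), Real.norm_of_nonneg hl0.le] at hn
  apply hω1
  have h2 : ((1 - lam : ℝ) : ℂ) ≠ 0 := by
    rw [Ne, Complex.ofReal_eq_zero]; linarith
  have h3 : ((1 - lam : ℝ) : ℂ) * ω = ((1 - lam : ℝ) : ℂ) * (-1) := by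
    rw [h1, hn]; ring
  exact mul_left_cancel₀ h2 h3

/-- An odd power of `ζ` is not `-1` (and not `1`) when `ζ^(2^n) = -1`, `n ≥ 1`. -/
theorem odd_pow_ne (n : ℕ) (hn : 1 ≤ n) (ζ : ℂ) (hζ : ζ ^ (2 ^ n) = -1) (a : ℕ) (ha : Odd a) :
    ζ ^ a ≠ -1 ∧ ζ ^ a ≠ 1 := by
  have hz : (ζ ^ a) ^ (2 ^ n) = -1 := gcp_odd_pow n ζ hζ a ha
  have hev := gcp_even_two_pow n hn
  constructor
  · intro h
    rw [h, hev.neg_one_pow] at hz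
    norm_num at hz
  · intro h
    rw [h, one_pow] at hz
    norm_num at hz

/-- The fourth roots `ζ^(2^(n-1))`, `ζ^(3·2^(n-1))` are not `-1`. -/
theorem quarter_pow_ne (n : ℕ) (hn : 1 ≤ n) (ζ : ℂ) (hζ : ζ ^ (2 ^ n) = -1) :
    ζ ^ (2 ^ (n - 1)) ≠ -1 ∧ ζ ^ (3 * 2 ^ (n - 1)) ≠ -1 := by
  have hq := gcp_quarter n hn ζ hζ
  constructor
  · intro h
    rw [h] at hq
    norm_num at hq
  · intro h
    rw [gcp_quarter3 n hn ζ hζ, neg_inj] at h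
    rw [h] at hq
    norm_num at hq

end Vale.Agent.H97.GC
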