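import Vale.Agent.H97.GC.Ladder
import Vale.Agent.H97.GC.Blocks
import Vale.Agent.H97.GC.Prods

/-!
# The chain family: ladder, conjugate splits, conjugate kinks (support for P058)

TASK GC-K.  Prove `ch_core` and `famMult_eq` (statements and `famMult` unchanged; helper lemmas
with fresh names starting `gck_` inside this file).  Black boxes: `ch_ladder` (Ladder.lean),
`ch_splits`, `ch_kinks` (Blocks.lean), `odd_prod`, `i_pair`, `lam_add_ne_zero`, `odd_pow_ne`,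
`quarter_pow_ne` (Prods.lean), `ch_congr` (Chain.lean), `ph_natCast`, `qp_norm_ph`.
Notation: `m = 2 ^ (n + 1)` (`ζ ^ m = 1`), `T = 2 ^ n - 2`, `r = ‖tauM lam mu ζ a b‖ ^ 2`,
`D = ∏_{i < T} (mu + (1 - mu) ph ζ (b (2 i + 3)))`, `E = ∏_{i < T} (lam + (1 - lam) ph ζ (a (2 i + 3)))`,
`cm = mu ^ 2 + (1 - mu) ^ 2`, `cl = lam ^ 2 + (1 - lam) ^ 2`;
`famMult = r ^ N * D ^ N * cm ^ J / (E ^ N * cl ^ j)`.

`ch_core` (the chain is built from the end, i.e. by prepending):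
1. `ch_ladder`: a chain with multiplier `r ^ N`, mass `KG`, cross term `ρ KG` and the lower
   bound for `KG`.
2. `N` times `ch_splits` with `f i = ((b * (2 i + 3) : ℕ) : ZMod m)`, `t = T`: multiplier
   `D ^ N * r ^ N`, same mass and cross term (induction on the number of blocks).
3. `J` times `ch_splits` with `t = 2`, `f 0 = ((2 ^ (n - 1) : ℕ) : ZMod m)`,
   `f 1 = ((3 * 2 ^ (n - 1) : ℕ) : ZMod m)` (product `= cm` by `i_pair mu`): multiplier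
   `cm ^ J * D ^ N * r ^ N`.
4. Now the mass is `KG ≤ KG + ‖Φ‖² / (lam (1 - lam))`: the hypothesis `hinv` of `ch_kinks` with
   `K₀ = KG`.  `N` times `ch_kinks` with `g i = ((a * (2 i + 3) : ℕ) : ZMod m)`, `t = T`
   (`hg`: `lam_add_ne_zero` with `ω = ζ ^ (a (2 i + 3))`, `‖ω‖ = 1`, `ω ≠ -1` by `odd_pow_ne`
   as `a (2 i + 3)` is odd), then `j` times `ch_kinks` with `t = 2` and the two fourth roots
   (`hg` by `quarter_pow_ne`; product `= cl` by `i_pair lam`).  Each application keeps the cross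
   term, does not decrease the mass and keeps the bound `K ≤ KG + ‖Φ‖² / (lam (1 - lam))`.
5. The final multiplier equals `famMult` (`ch_congr`, `div_div`, `ring`).

`famMult_eq`: `odd_prod mu n hn ζ hζ b hb : ‖mu + (1 - mu) ζ^b‖² * D = mu^(2^n) + (1 - mu)^(2^n)`
and `odd_prod lam n hn ζ hζ a ha : ‖lam + (1 - lam) ζ^a‖² * E = lam^(2^n) + (1 - lam)^(2^n)`
(both right sides are positive reals, so all factors are nonzero), and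
`r = ‖mu + (1 - mu) ζ^b‖² / ‖lam + (1 - lam) ζ^a‖²` (`norm_div`); hence
`r ^ N * D ^ N / E ^ N = ((mu^(2^n) + (1 - mu)^(2^n)) / (lam^(2^n) + (1 - lam)^(2^n))) ^ N`
(`push_cast`, `field_simp`).
-/

namespace Vale.Agent.H97.GC

open Vale.Agent.H16.Kite
open scoped BigOperators ComplexConjugate

/-- The multiplier of the chain with `N` tau-pairs, `N` blocks of conjugate splits, `J` pairs of
splits at the fourth roots of unity, `N` blocks of conjugate kinks and `j` pairs of kinks at the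
fourth roots of unity. -/
noncomputable def famMult (lam mu : ℝ) (n : ℕ) (ζ : ℂ) (a b N J j : ℕ) : ℂ :=
  (((‖tauM lam mu ζ a b‖ ^ 2) ^ N : ℝ) : ℂ)
    * (∏ i ∈ Finset.range (2 ^ n - 2),
        ((mu : ℂ) + (1 - (mu : ℂ)) * ph ζ (((b * (2 * i + 3) : ℕ)) : ZMod (2 ^ (n + 1))))) ^ N
    * (((mu ^ 2 + (1 - mu) ^ 2 : ℝ)) : ℂ) ^ J
    / ((∏ i ∈ Finset.range (2 ^ n - 2),
        ((lam : ℂ) + (1 - (lam : ℂ)) * ph ζ (((a * (2 * i + 3) : ℕ)) : ZMod (2 ^ (n + 1))))) ^ N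
      * (((lam ^ 2 + (1 - lam) ^ 2 : ℝ)) : ℂ) ^ j)

/-- Iterating a block of split steps. -/
theorem gck_splits {lam mu : ℝ} {m : ℕ} [NeZero m] {ζ : ℂ} {L : ℕ} {Φ : ℂ} {K X : ℝ}
    (h : Ch lam mu m ζ L Φ K X) (f : ℕ → ZMod m) (t : ℕ) :
    ∀ N : ℕ, ∃ L' : ℕ, Ch lam mu m ζ L'
      ((∏ i ∈ Finset.range t, ((mu : ℂ) + (1 - (mu : ℂ)) * ph ζ (f i))) ^ N * Φ) K X := by
  intro N
  induction N with
  | zero => exact ⟨L, ch_congr h (by simp) rfl rfl⟩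
  | succ N ih =>
    obtain ⟨L1, h1⟩ := ih
    refine ⟨L1 + t, ch_congr (ch_splits h1 f t) ?_ rfl rfl⟩
    rw [pow_succ]
    ring

/-- Iterating a block of pure kink steps. -/
theorem gck_kinks {lam mu : ℝ} (hl0 : 0 < lam) (hl1 : lam < 1) {m : ℕ} [NeZero m] {ζ : ℂ}
    (hζ : ζ ^ m = 1) {L : ℕ} {Φ : ℂ} {K X K₀ : ℝ} (h : Ch lam mu m ζ L Φ K X)
    (hinv : K ≤ K₀ + ‖Φ‖ ^ 2 / (lam * (1 - lam))) (g : ℕ → ZMod m) (t : ℕ)
    (hg : ∀ i, i < t → (lam : ℂ) + (1 - (lam : ℂ)) * ph ζ (g i) ≠ 0) :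
    ∀ N : ℕ, ∃ (L' : ℕ) (K' : ℝ), Ch lam mu m ζ L'
        (Φ / (∏ i ∈ Finset.range t, ((lam : ℂ) + (1 - (lam : ℂ)) * ph ζ (g i))) ^ N) K' X ∧
      K ≤ K' ∧
      K' ≤ K₀ + ‖Φ / (∏ i ∈ Finset.range t, ((lam : ℂ) + (1 - (lam : ℂ)) * ph ζ (g i))) ^ N‖ ^ 2 /
        (lam * (1 - lam)) := by
  intro N
  induction N with
  | zero =>
    refine ⟨L, K, ch_congr h (by simp) rfl rfl, le_refl K, ?_⟩
    rw [pow_zero, div_one]
    exact hinv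
  | succ N ih =>
    obtain ⟨L1, K1, h1, hK1, hb1⟩ := ih
    obtain ⟨K2, h2, hK2, hb2⟩ := ch_kinks hl0 hl1 hζ h1 hb1 g t hg
    have e : Φ / (∏ i ∈ Finset.range t, ((lam : ℂ) + (1 - (lam : ℂ)) * ph ζ (g i))) ^ N /
        (∏ i ∈ Finset.range t, ((lam : ℂ) + (1 - (lam : ℂ)) * ph ζ (g i)))
        = Φ / (∏ i ∈ Finset.range t, ((lam : ℂ) + (1 - (lam : ℂ)) * ph ζ (g i))) ^ (N + 1) := by
      rw [pow_succ, div_div]
    refine ⟨L1 + t, K2, ch_congr h2 e rfl rfl, le_trans hK1 hK2, ?_⟩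
    rw [← e]
    exact hb2

/-- The product of the two factors at the fourth roots of unity. -/
theorem gck_pair (x : ℝ) (n : ℕ) (hn : 1 ≤ n) (ζ : ℂ) (hζ : ζ ^ (2 ^ n) = -1) :
    ∏ i ∈ Finset.range 2, ((x : ℂ) + (1 - (x : ℂ)) *
        ph ζ ((((2 * i + 1) * 2 ^ (n - 1) : ℕ)) : ZMod (2 ^ (n + 1))))
      = ((x ^ 2 + (1 - x) ^ 2 : ℝ) : ℂ) := by
  rw [Finset.prod_range_succ, Finset.prod_range_one]
  have e0 : (2 * 0 + 1) * 2 ^ (n - 1) = 2 ^ (n - 1) := by ring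
  have e1 : (2 * 1 + 1) * 2 ^ (n - 1) = 3 * 2 ^ (n - 1) := by ring
  rw [e0, e1]
  exact i_pair x n hn ζ hζ

/-- The chain with multiplier `famMult`: its cross term is `ρ KG` with `KG` the mass of the
ladder, and its total kink mass `K` satisfies `KG ≤ K ≤ KG + ‖famMult‖² / (lam (1 - lam))`. -/
theorem ch_core (lam mu : ℝ) (hl0 : 0 < lam) (hl1 : lam < 1) (n : ℕ) (hn : 1 ≤ n) (ζ : ℂ)
    (hζ : ζ ^ (2 ^ n) = -1) (a b : ℕ) (ha : Odd a) (hM : 1 < ‖tauM lam mu ζ a b‖) (N J j : ℕ) :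
    ∃ (L : ℕ) (K KG : ℝ),
      Ch lam mu (2 ^ (n + 1)) ζ L (famMult lam mu n ζ a b N J j) K (tauRho lam mu ζ a b * KG) ∧
      ‖1 - ζ ^ a‖ ^ 2 * (((‖tauM lam mu ζ a b‖ ^ 2) ^ N) ^ 2 - 1) ≤ KG ∧ KG ≤ K ∧
      K ≤ KG + ‖famMult lam mu n ζ a b N J j‖ ^ 2 / (lam * (1 - lam)) := by
  have hζm : ζ ^ (2 ^ (n + 1)) = 1 := by
    rw [pow_succ, pow_mul, hζ]
    norm_num
  have hll : 0 < lam * (1 - lam) := mul_pos hl0 (by linarith)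
  obtain ⟨KG, h0, hKG⟩ := ch_ladder lam mu n hn ζ hζ a b ha hM N
  obtain ⟨L1, h1⟩ := gck_splits h0
    (fun i => (((b * (2 * i + 3) : ℕ)) : ZMod (2 ^ (n + 1)))) (2 ^ n - 2) N
  obtain ⟨L2, h2⟩ := gck_splits h1
    (fun i => ((((2 * i + 1) * 2 ^ (n - 1) : ℕ)) : ZMod (2 ^ (n + 1)))) 2 J
  rw [gck_pair mu n hn ζ hζ] at h2
  have hinv : KG ≤ KG + ‖(((mu ^ 2 + (1 - mu) ^ 2 : ℝ)) : ℂ) ^ J *
      ((∏ i ∈ Finset.range (2 ^ n - 2),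
        ((mu : ℂ) + (1 - (mu : ℂ)) * ph ζ (((b * (2 * i + 3) : ℕ)) : ZMod (2 ^ (n + 1))))) ^ N *
        (((‖tauM lam mu ζ a b‖ ^ 2) ^ N : ℝ) : ℂ))‖ ^ 2 / (lam * (1 - lam)) := by
    have h3 : 0 ≤ ‖(((mu ^ 2 + (1 - mu) ^ 2 : ℝ)) : ℂ) ^ J *
      ((∏ i ∈ Finset.range (2 ^ n - 2),
        ((mu : ℂ) + (1 - (mu : ℂ)) * ph ζ (((b * (2 * i + 3) : ℕ)) : ZMod (2 ^ (n + 1))))) ^ N *
        (((‖tauM lam mu ζ a b‖ ^ 2) ^ N : ℝ) : ℂ))‖ ^ 2 / (lam * (1 - lam)) :=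
      div_nonneg (sq_nonneg _) hll.le
    linarith
  have hg1 : ∀ i, i < 2 ^ n - 2 → (lam : ℂ) + (1 - (lam : ℂ)) *
      ph ζ (((a * (2 * i + 3) : ℕ)) : ZMod (2 ^ (n + 1))) ≠ 0 := by
    intro i _
    refine lam_add_ne_zero lam hl0 hl1 _ (qp_norm_ph hζm _) ?_
    rw [ph_natCast hζm]
    have hodd : Odd (a * (2 * i + 3)) := ha.mul ⟨i + 1, by ring⟩
    exact (odd_pow_ne n hn ζ hζ _ hodd).1
  obtain ⟨L3, K3, h3, hK3, hb3⟩ := gck_kinks hl0 hl1 hζm h2 hinv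
    (fun i => (((a * (2 * i + 3) : ℕ)) : ZMod (2 ^ (n + 1)))) (2 ^ n - 2) hg1 N
  have hg2 : ∀ i, i < 2 → (lam : ℂ) + (1 - (lam : ℂ)) *
      ph ζ ((((2 * i + 1) * 2 ^ (n - 1) : ℕ)) : ZMod (2 ^ (n + 1))) ≠ 0 := by
    intro i hi
    refine lam_add_ne_zero lam hl0 hl1 _ (qp_norm_ph hζm _) ?_
    rw [ph_natCast hζm]
    have hq := quarter_pow_ne n hn ζ hζ
    interval_cases i
    · have e0 : (2 * 0 + 1) * 2 ^ (n - 1) = 2 ^ (n - 1) := by ring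
      rw [e0]
      exact hq.1
    · have e1 : (2 * 1 + 1) * 2 ^ (n - 1) = 3 * 2 ^ (n - 1) := by ring
      rw [e1]
      exact hq.2
  obtain ⟨L4, K4, h4, hK4, hb4⟩ := gck_kinks hl0 hl1 hζm h3 hb3
    (fun i => ((((2 * i + 1) * 2 ^ (n - 1) : ℕ)) : ZMod (2 ^ (n + 1)))) 2 hg2 j
  rw [gck_pair lam n hn ζ hζ] at h4 hb4
  have e : (((mu ^ 2 + (1 - mu) ^ 2 : ℝ)) : ℂ) ^ J *
      ((∏ i ∈ Finset.range (2 ^ n - 2),
        ((mu : ℂ) + (1 - (mu : ℂ)) * ph ζ (((b * (2 * i + 3) : ℕ)) : ZMod (2 ^ (n + 1))))) ^ N *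
        (((‖tauM lam mu ζ a b‖ ^ 2) ^ N : ℝ) : ℂ)) /
      (∏ i ∈ Finset.range (2 ^ n - 2),
        ((lam : ℂ) + (1 - (lam : ℂ)) * ph ζ (((a * (2 * i + 3) : ℕ)) : ZMod (2 ^ (n + 1))))) ^ N /
      (((lam ^ 2 + (1 - lam) ^ 2 : ℝ)) : ℂ) ^ j = famMult lam mu n ζ a b N J j := by
    unfold famMult
    rw [div_div]
    congr 1
    ring
  rw [e] at h4 hb4
  exact ⟨L4, K4, KG, h4, hKG, le_trans hK3 hK4, hb4⟩

/-- The algebra behind `famMult_eq`. -/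
theorem gck_alg (p q Pm Pl cm cl : ℝ) (D E : ℂ) (N J j : ℕ) (hp : p ≠ 0) (hq : q ≠ 0)
    (hPl : Pl ≠ 0) (hcl : cl ≠ 0) (hD : (p : ℂ) * D = (Pm : ℂ)) (hE : (q : ℂ) * E = (Pl : ℂ)) :
    (((p / q) ^ N : ℝ) : ℂ) * D ^ N * (cm : ℂ) ^ J / (E ^ N * (cl : ℂ) ^ j)
      = (((Pm / Pl) ^ N * cm ^ J / cl ^ j : ℝ) : ℂ) := by
  have hpc : (p : ℂ) ≠ 0 := by exact_mod_cast hp
  have hqc : (q : ℂ) ≠ 0 := by exact_mod_cast hq
  have hPlc : (Pl : ℂ) ≠ 0 := by exact_mod_cast hPl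
  have hclc : (cl : ℂ) ≠ 0 := by exact_mod_cast hcl
  have hD' : D = (Pm : ℂ) / p := by
    rw [eq_div_iff hpc, mul_comm]
    exact hD
  have hE' : E = (Pl : ℂ) / q := by
    rw [eq_div_iff hqc, mul_comm]
    exact hE
  rw [hD', hE']
  push_cast
  simp only [div_pow]
  field_simp

/-- The multiplier `famMult` is the rational expression given by the norm identity. -/
theorem famMult_eq (lam mu : ℝ) (hl0 : 0 < lam) (hl1 : lam < 1) (hm0 : 0 < mu) (hm1 : mu < 1)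
    (n : ℕ) (hn : 1 ≤ n) (ζ : ℂ) (hζ : ζ ^ (2 ^ n) = -1) (a b : ℕ) (ha : Odd a) (hb : Odd b)
    (N J j : ℕ) :
    famMult lam mu n ζ a b N J j =
      (((((mu ^ (2 ^ n) + (1 - mu) ^ (2 ^ n)) / (lam ^ (2 ^ n) + (1 - lam) ^ (2 ^ n))) ^ N *
        (mu ^ 2 + (1 - mu) ^ 2) ^ J / (lam ^ 2 + (1 - lam) ^ 2) ^ j : ℝ)) : ℂ) := by
  have hD := odd_prod mu n hn ζ hζ b hb
  have hE := odd_prod lam n hn ζ hζ a ha
  have hPm : 0 < mu ^ (2 ^ n) + (1 - mu) ^ (2 ^ n) := by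
    have h1 : 0 < mu ^ (2 ^ n) := pow_pos hm0 _
    have h2 : 0 < (1 - mu) ^ (2 ^ n) := pow_pos (by linarith) _
    linarith
  have hPl : 0 < lam ^ (2 ^ n) + (1 - lam) ^ (2 ^ n) := by
    have h1 : 0 < lam ^ (2 ^ n) := pow_pos hl0 _
    have h2 : 0 < (1 - lam) ^ (2 ^ n) := pow_pos (by linarith) _
    linarith
  have hcl : 0 < lam ^ 2 + (1 - lam) ^ 2 := by
    have h1 : 0 < lam ^ 2 := pow_pos hl0 _
    have h2 : 0 ≤ (1 - lam) ^ 2 := sq_nonneg _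
    linarith
  have hp : ‖(mu : ℂ) + (1 - (mu : ℂ)) * ζ ^ b‖ ^ 2 ≠ 0 := by
    intro h0
    have h1 : ((mu ^ (2 ^ n) + (1 - mu) ^ (2 ^ n) : ℝ) : ℂ) = 0 := by
      rw [← hD, h0]
      simp
    have h2 : mu ^ (2 ^ n) + (1 - mu) ^ (2 ^ n) = 0 := by exact_mod_cast h1
    linarith
  have hq : ‖(lam : ℂ) + (1 - (lam : ℂ)) * ζ ^ a‖ ^ 2 ≠ 0 := by
    intro h0
    have h1 : ((lam ^ (2 ^ n) + (1 - lam) ^ (2 ^ n) : ℝ) : ℂ) = 0 := by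
      rw [← hE, h0]
      simp
    have h2 : lam ^ (2 ^ n) + (1 - lam) ^ (2 ^ n) = 0 := by exact_mod_cast h1
    linarith
  have hr : ‖tauM lam mu ζ a b‖ ^ 2 = ‖(mu : ℂ) + (1 - (mu : ℂ)) * ζ ^ b‖ ^ 2 /
      ‖(lam : ℂ) + (1 - (lam : ℂ)) * ζ ^ a‖ ^ 2 := by
    unfold tauM
    rw [norm_div, div_pow]
  unfold famMult
  rw [hr]
  exact gck_alg _ _ _ _ _ _ _ _ N J j hp hq hPl.ne' hcl.ne' hD hE

end Vale.Agent.H97.GC
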