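import Mathlib

/-!
# Tuning a positive rational into `(1, 2]` (support for P058)

TASK GC-U.  Prove `exists_tune` (statement unchanged).  Sketch: as `cμ < 1` there is `J` with
`x cμ ^ J ≤ 1` (`exists_pow_lt_of_lt_one`); put `y = x cμ ^ J ∈ (0, 1]`.  As `cl < 1` the numbers
`y / cl ^ j` are unbounded; let `j` be the least with `1 < y / cl ^ j` (`Nat.find`); `j ≥ 1`
and `y / cl ^ (j - 1) ≤ 1`, so `y / cl ^ j ≤ 1 / cl ≤ 2`.
-/

namespace Vale.Agent.H97.GC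

/-- For `x > 0` and `cμ, cλ ∈ [1/2, 1)` there are `J, j` with `1 < x cμ^J / cλ^j ≤ 2`. -/
theorem exists_tune (x cμ cl : ℚ) (hx : 0 < x) (h1 : 1 / 2 ≤ cμ) (h2 : cμ < 1) (h3 : 1 / 2 ≤ cl)
    (h4 : cl < 1) : ∃ J j : ℕ, 1 < x * cμ ^ J / cl ^ j ∧ x * cμ ^ J / cl ^ j ≤ 2 := by
  have hcμ : 0 < cμ := by linarith
  have hcl : 0 < cl := by linarith
  obtain ⟨J, hJ⟩ := exists_pow_lt_of_lt_one (inv_pos.2 hx) h2
  have hy0 : 0 < x * cμ ^ J := mul_pos hx (pow_pos hcμ J)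
  have hy1 : x * cμ ^ J < 1 := by
    have := mul_lt_mul_of_pos_left hJ hx
    rwa [mul_inv_cancel₀ hx.ne'] at this
  have hex : ∃ j : ℕ, cl ^ j < x * cμ ^ J := exists_pow_lt_of_lt_one hy0 h4
  classical
  have hjs := Nat.find_spec hex
  have hminall : ∀ k, k < Nat.find hex → ¬ cl ^ k < x * cμ ^ J :=
    fun k hk => Nat.find_min hex hk
  generalize Nat.find hex = j at hjs hminall
  have hj0 : j ≠ 0 := by
    intro h0
    rw [h0, pow_zero] at hjs
    linarith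
  obtain ⟨j', hj'⟩ := Nat.exists_eq_succ_of_ne_zero hj0
  have hmin : ¬ cl ^ j' < x * cμ ^ J := hminall j' (by omega)
  push Not at hmin
  refine ⟨J, j, ?_, ?_⟩
  · rw [lt_div_iff₀ (pow_pos hcl j)]
    linarith
  · rw [div_le_iff₀ (pow_pos hcl j), hj', pow_succ]
    have hpos : 0 < cl ^ j' := pow_pos hcl j'
    nlinarith

end Vale.Agent.H97.GC
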