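import Vale.Agent.H97.GC.Core
import Vale.Agent.H97.GC.Tune

/-!
# Chains with rational multiplier in `(1, 2]` and ratio close to that of a tau-step
(support for P058)

Notation: `ρ = tauRho lam mu ζ a b > 0`, `r = ‖tauM lam mu ζ a b‖ ^ 2 > 1`,
`w = ‖1 - ζ ^ a‖ ^ 2 > 0` (`odd_pow_ne`), `C = 4 / (lam (1 - lam)) > 0` (real).
1. Choose `N` with `r ^ N > 1 + C / (ε w)` (`pow_unbounded_of_one_lt`); then
   `w ((r ^ N) ^ 2 - 1) ≥ w (r ^ N - 1) ≥ C / ε`.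
2. `x := ((mu ^ (2 ^ n) + (1 - mu) ^ (2 ^ n)) / (lam ^ (2 ^ n) + (1 - lam) ^ (2 ^ n))) ^ N > 0`
   (rational), `cμ := mu ^ 2 + (1 - mu) ^ 2`, `cl := lam ^ 2 + (1 - lam) ^ 2`, both in `[1/2, 1)`;
   `exists_tune` gives `J, j` with `1 < Φ ≤ 2` for `Φ := x * cμ ^ J / cl ^ j`.
3. `ch_core` gives `L, K, KG`; by `famMult_eq` the multiplier is `((Φ : ℝ) : ℂ)`, whose norm is
   `Φ ≤ 2`; so `KG ≤ K ≤ KG + C` and `KG ≥ C / ε > 0`.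
4. `X = ρ KG`.  Claim `ρ (1 - ε) K ≤ ρ KG`: if `1 - ε ≤ 0` the left side is `≤ 0`; otherwise
   `(1 - ε) K ≤ (1 - ε) (KG + C) ≤ KG` because `ε KG ≥ C ≥ (1 - ε) C`.
-/

namespace Vale.Agent.H97.GC

open Vale.Agent.H16.Kite
open scoped BigOperators ComplexConjugate

/-- `c ^ 2 + (1 - c) ^ 2` lies in `[1/2, 1)` for `0 < c < 1`. -/
theorem gcf_half (c : ℚ) (h0 : 0 < c) (h1 : c < 1) :
    1 / 2 ≤ c ^ 2 + (1 - c) ^ 2 ∧ c ^ 2 + (1 - c) ^ 2 < 1 := by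
  constructor
  · nlinarith [sq_nonneg (c - 1 / 2)]
  · nlinarith [mul_pos h0 (sub_pos.mpr h1)]

/-- The elementary inequality behind step 4. -/
theorem gcf_key (ε K KG C : ℝ) (hε : 0 < ε) (hC : 0 < C) (hKG : C / ε ≤ KG) (hK : K ≤ KG + C)
    (hK0 : 0 < K) : (1 - ε) * K ≤ KG := by
  have hCε : C ≤ ε * KG := by
    have h := (div_le_iff₀ hε).mp hKG
    linarith
  rcases le_or_gt (1 - ε) 0 with h | h
  · have h1 : (1 - ε) * K ≤ 0 := mul_nonpos_of_nonpos_of_nonneg h hK0.le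
    have h2 : 0 < C / ε := div_pos hC hε
    linarith
  · have h1 : (1 - ε) * K ≤ (1 - ε) * (KG + C) := mul_le_mul_of_nonneg_left hK h.le
    nlinarith

/-- The lower bound for the ladder mass from the choice of `N`. -/
theorem gcf_mass (w C ε R : ℝ) (hw : 0 < w) (hε : 0 < ε)
    (hR : 1 + C / (ε * w) < R) (hC : 0 < C) : C / ε ≤ w * (R ^ 2 - 1) := by
  have hεw : 0 < ε * w := mul_pos hε hw
  have hpos : 0 < C / (ε * w) := div_pos hC hεw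
  have hR1 : 1 < R := by linarith
  have h1 : C / (ε * w) ≤ R ^ 2 - 1 := by nlinarith
  have h2 : C / ε = w * (C / (ε * w)) := by
    field_simp
  rw [h2]
  exact mul_le_mul_of_nonneg_left h1 hw.le

/-- For a tau-step with odd exponents, multiplier of modulus `> 1` and ratio `ρ > 0`, and every
`ε > 0`, there is a chain with RATIONAL multiplier `Φ ∈ (1, 2]`, kink mass `K > 0` and cross term
`X ≥ ρ (1 - ε) K`. -/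
theorem ch_family (lam mu : ℚ) (hl0 : 0 < lam) (hl1 : lam < 1) (hm0 : 0 < mu) (hm1 : mu < 1)
    (n a b : ℕ) (hn : 1 ≤ n) (ha : Odd a) (hb : Odd b) (ζ : ℂ) (hζ : ζ ^ (2 ^ n) = -1)
    (hM : 1 < ‖tauM (lam : ℝ) (mu : ℝ) ζ a b‖) (hρ0 : 0 < tauRho (lam : ℝ) (mu : ℝ) ζ a b)
    (ε : ℝ) (hε : 0 < ε) :
    ∃ (L : ℕ) (Φ : ℚ) (K X : ℝ), 1 < Φ ∧ Φ ≤ 2 ∧
      Ch (lam : ℝ) (mu : ℝ) (2 ^ (n + 1)) ζ L (((Φ : ℝ)) : ℂ) K X ∧ 0 < K ∧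
      tauRho (lam : ℝ) (mu : ℝ) ζ a b * (1 - ε) * K ≤ X := by
  have hl0r : (0 : ℝ) < (lam : ℝ) := by exact_mod_cast hl0
  have hl1r : (lam : ℝ) < 1 := by exact_mod_cast hl1
  have hm0r : (0 : ℝ) < (mu : ℝ) := by exact_mod_cast hm0
  have hm1r : (mu : ℝ) < 1 := by exact_mod_cast hm1
  have hll : 0 < (lam : ℝ) * (1 - (lam : ℝ)) := mul_pos hl0r (sub_pos.mpr hl1r)
  have hr1 : 1 < ‖tauM (lam : ℝ) (mu : ℝ) ζ a b‖ ^ 2 := by nlinarith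
  have hw : 0 < ‖1 - ζ ^ a‖ ^ 2 :=
    pow_pos (norm_pos_iff.mpr (sub_ne_zero.mpr (Ne.symm (odd_pow_ne n hn ζ hζ a ha).2))) 2
  have hC : 0 < 4 / ((lam : ℝ) * (1 - (lam : ℝ))) := div_pos (by norm_num) hll
  obtain ⟨N, hN⟩ := pow_unbounded_of_one_lt
    (1 + 4 / ((lam : ℝ) * (1 - (lam : ℝ))) / (ε * ‖1 - ζ ^ a‖ ^ 2)) hr1
  have hmass := gcf_mass (‖1 - ζ ^ a‖ ^ 2) (4 / ((lam : ℝ) * (1 - (lam : ℝ)))) ε
    ((‖tauM (lam : ℝ) (mu : ℝ) ζ a b‖ ^ 2) ^ N) hw hε hN hC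
  have hx : 0 < ((mu ^ (2 ^ n) + (1 - mu) ^ (2 ^ n)) /
      (lam ^ (2 ^ n) + (1 - lam) ^ (2 ^ n))) ^ N := by
    apply pow_pos
    apply div_pos
    · exact add_pos (pow_pos hm0 _) (pow_pos (sub_pos.mpr hm1) _)
    · exact add_pos (pow_pos hl0 _) (pow_pos (sub_pos.mpr hl1) _)
  obtain ⟨J, j, hΦ1, hΦ2⟩ := exists_tune _ (mu ^ 2 + (1 - mu) ^ 2) (lam ^ 2 + (1 - lam) ^ 2) hx
    (gcf_half mu hm0 hm1).1 (gcf_half mu hm0 hm1).2 (gcf_half lam hl0 hl1).1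
    (gcf_half lam hl0 hl1).2
  obtain ⟨L, K, KG, hCh, hKG, hKGK, hKle⟩ :=
    ch_core (lam : ℝ) (mu : ℝ) hl0r hl1r n hn ζ hζ a b ha hM N J j
  have hfam := famMult_eq (lam : ℝ) (mu : ℝ) hl0r hl1r hm0r hm1r n hn ζ hζ a b ha hb N J j
  have hcast : (((((mu : ℝ) ^ (2 ^ n) + (1 - (mu : ℝ)) ^ (2 ^ n)) /
      ((lam : ℝ) ^ (2 ^ n) + (1 - (lam : ℝ)) ^ (2 ^ n))) ^ N *
      ((mu : ℝ) ^ 2 + (1 - (mu : ℝ)) ^ 2) ^ J / ((lam : ℝ) ^ 2 + (1 - (lam : ℝ)) ^ 2) ^ j : ℝ)) =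
      (((((mu ^ (2 ^ n) + (1 - mu) ^ (2 ^ n)) / (lam ^ (2 ^ n) + (1 - lam) ^ (2 ^ n))) ^ N *
        (mu ^ 2 + (1 - mu) ^ 2) ^ J / (lam ^ 2 + (1 - lam) ^ 2) ^ j : ℚ)) : ℝ) := by
    push_cast
    ring
  rw [hcast] at hfam
  rw [hfam] at hCh hKle
  have hΦ1r : (1 : ℝ) < (((((mu ^ (2 ^ n) + (1 - mu) ^ (2 ^ n)) /
      (lam ^ (2 ^ n) + (1 - lam) ^ (2 ^ n))) ^ N *
        (mu ^ 2 + (1 - mu) ^ 2) ^ J / (lam ^ 2 + (1 - lam) ^ 2) ^ j : ℚ)) : ℝ) := by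
    exact_mod_cast hΦ1
  have hΦ2r : (((((mu ^ (2 ^ n) + (1 - mu) ^ (2 ^ n)) /
      (lam ^ (2 ^ n) + (1 - lam) ^ (2 ^ n))) ^ N *
        (mu ^ 2 + (1 - mu) ^ 2) ^ J / (lam ^ 2 + (1 - lam) ^ 2) ^ j : ℚ)) : ℝ) ≤ 2 := by
    exact_mod_cast hΦ2
  have hnorm : ‖(((((((mu ^ (2 ^ n) + (1 - mu) ^ (2 ^ n)) /
      (lam ^ (2 ^ n) + (1 - lam) ^ (2 ^ n))) ^ N *
        (mu ^ 2 + (1 - mu) ^ 2) ^ J / (lam ^ 2 + (1 - lam) ^ 2) ^ j : ℚ)) : ℝ)) : ℂ)‖ ^ 2 ≤ 4 := by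
    rw [Complex.norm_real, Real.norm_eq_abs, abs_of_pos (by linarith)]
    nlinarith
  have hKle' : K ≤ KG + 4 / ((lam : ℝ) * (1 - (lam : ℝ))) := by
    refine hKle.trans ?_
    have := div_le_div_of_nonneg_right hnorm hll.le
    linarith
  have hKG' : 4 / ((lam : ℝ) * (1 - (lam : ℝ))) / ε ≤ KG := hmass.trans hKG
  have hKG0 : 0 < KG := lt_of_lt_of_le (div_pos hC hε) hKG'
  have hK0 : 0 < K := lt_of_lt_of_le hKG0 hKGK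
  have hkey := gcf_key ε K KG _ hε hC hKG' hKle' hK0
  refine ⟨L, _, K, tauRho (lam : ℝ) (mu : ℝ) ζ a b * KG, hΦ1, hΦ2, hCh, hK0, ?_⟩
  rw [mul_assoc]
  exact mul_le_mul_of_nonneg_left hkey hρ0.le

end Vale.Agent.H97.GC
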