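import Vale.Agent.H16.GQ.EdgeRat

/-!
# Single-kink gadgets with prescribed rational kink value (support for P058)

TASK GC-G.  Prove `wach_rat` (statement unchanged).  Sketch: `x := mu (1 - f) / ((1 - mu) (1 + f))`
is rational with `0 ≤ x ≤ 1` (`x ≤ 1` iff `2 mu - 1 ≤ f`, true as `mu ≤ 1/2`, `f > 0`);
`em_ratq (mu : ℝ) _ _ x _ _ : EM mu x`, and `EM mu x = WAch mu ((x (1 - mu) - mu) / (x (1 - mu) +
mu)) (-1)` (GQ/Edge.lean) with `(x (1 - mu) - mu) / (x (1 - mu) + mu) = -f`; then `wach_neg`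
(GQ/WAch.lean) gives `WAch mu f 1`; use `ge_congr` (GQ/Edge.lean) for the rewriting.
-/

namespace Vale.Agent.H97.GC

open Vale.Agent.H16.Kite

/-- For rational `0 < mu ≤ 1/2` and rational `0 < f < 1` there is a weighted single-kink
structure in a `2`-group with kink value `f`. -/
theorem wach_rat (mu : ℚ) (hm0 : 0 < mu) (hm : mu ≤ 1 / 2) (f : ℚ) (hf0 : 0 < f) (hf1 : f < 1) :
    ∃ p : ℝ, WAch (mu : ℝ) (f : ℝ) p := by
  have hmuR0 : (0 : ℝ) < (mu : ℝ) := by exact_mod_cast hm0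
  have hmuRh : (mu : ℝ) ≤ 1 / 2 := by
    have h' : ((mu : ℚ) : ℝ) ≤ ((1 / 2 : ℚ) : ℝ) := Rat.cast_le.mpr hm
    have h'' : ((1 / 2 : ℚ) : ℝ) = 1 / 2 := by push_cast; ring
    rw [h''] at h'
    exact h'
  have hmuR1 : (mu : ℝ) < 1 := by linarith
  have hfR0 : (0 : ℝ) < (f : ℝ) := by exact_mod_cast hf0
  have hfR1 : (f : ℝ) < 1 := by exact_mod_cast hf1
  have hden : 0 < (1 - mu) * (1 + f) := by
    apply mul_pos <;> linarith
  have hx0 : 0 ≤ mu * (1 - f) / ((1 - mu) * (1 + f)) :=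
    div_nonneg (mul_nonneg hm0.le (by linarith)) hden.le
  have hx1 : mu * (1 - f) / ((1 - mu) * (1 + f)) ≤ 1 := by
    rw [div_le_one hden]
    nlinarith
  have h := em_ratq (mu : ℝ) hmuR0 hmuR1 (mu * (1 - f) / ((1 - mu) * (1 + f))) hx0 hx1
  unfold EM at h
  have h2 := wach_neg h
  refine ⟨1, ge_congr h2 ?_ (by norm_num)⟩
  have e1 : (1 - (mu : ℝ)) ≠ 0 := by
    have : (0 : ℝ) < 1 - (mu : ℝ) := by linarith
    exact this.ne'
  have e2 : (1 + (f : ℝ)) ≠ 0 := by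
    have : (0 : ℝ) < 1 + (f : ℝ) := by linarith
    exact this.ne'
  have hxr : ((mu * (1 - f) / ((1 - mu) * (1 + f)) : ℚ) : ℝ) * (1 - (mu : ℝ)) =
      (mu : ℝ) * (1 - (f : ℝ)) / (1 + (f : ℝ)) := by
    push_cast
    field_simp
  rw [hxr]
  have e3 : (mu : ℝ) * (1 - (f : ℝ)) / (1 + (f : ℝ)) + (mu : ℝ) ≠ 0 := by
    have : (0 : ℝ) < (mu : ℝ) * (1 - (f : ℝ)) / (1 + (f : ℝ)) + (mu : ℝ) := by
      have : (0 : ℝ) ≤ (mu : ℝ) * (1 - (f : ℝ)) / (1 + (f : ℝ)) :=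
        div_nonneg (mul_nonneg hmuR0.le (by linarith)) (by linarith)
      linarith
    exact this.ne'
  have hmu0 : (mu : ℝ) ≠ 0 := hmuR0.ne'
  field_simp
  ring

end Vale.Agent.H97.GC
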