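import Mathlib

/-!
# The multiplier and the ratio of a tau-step (definitions for P058)
-/

namespace Vale.Agent.H97.GC

/-- The multiplier of the tau-step with kink phase `ζ^a` and edge phases `1`, `ζ^b`. -/
noncomputable def tauM (lam mu : ℝ) (ζ : ℂ) (a b : ℕ) : ℂ :=
  ((mu : ℂ) + (1 - (mu : ℂ)) * ζ ^ b) / ((lam : ℂ) + (1 - (lam : ℂ)) * ζ ^ a)

/-- The cross ratio of the tau-step with kink phase `ζ^a` and edge phases `1`, `ζ^b`. -/
noncomputable def tauRho (lam mu : ℝ) (ζ : ℂ) (a b : ℕ) : ℝ :=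
  ((1 - ζ ^ b) / (tauM lam mu ζ a b * (1 - ζ ^ a))).re

/-- `ζ_n = exp (π i / 2^n)`, a primitive `2^(n+1)`-th root of unity. -/
noncomputable def zetaN (n : ℕ) : ℂ := Complex.exp ((Real.pi : ℂ) * Complex.I / 2 ^ n)

theorem zetaN_pow (n : ℕ) : zetaN n ^ (2 ^ n) = -1 := by
  unfold zetaN
  rw [← Complex.exp_nat_mul]
  have e : ((2 ^ n : ℕ) : ℂ) * ((Real.pi : ℂ) * Complex.I / 2 ^ n) = (Real.pi : ℂ) * Complex.I := by
    push_cast
    field_simp
  rw [e, Complex.exp_pi_mul_I]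

end Vale.Agent.H97.GC
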