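import Vale.Agent.H97.GC.Chain
import Vale.Agent.H97.GC.Tau

/-!
# The ladder of tau-steps (support for P058)

TASK GC-L.  Prove `ch_ladder` (statement unchanged; helper lemmas with fresh names starting
`gcl_` inside this file).  Black boxes: `ch_nil`, `ch_step`, `ch_congr` (Chain.lean), `ph_zero`,
`ph_natCast`, `ph_add` (KitePhase.lean).  Write `m = 2 ^ (n + 1)`, `M = tauM lam mu ζ a b`,
`ρ = tauRho lam mu ζ a b`, `r = ‖M‖ ^ 2`, `w = ‖1 - ζ ^ a‖ ^ 2`; `ζ ^ m = 1`, `‖ζ‖ = 1`; from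
`hM`: `M ≠ 0` and the denominator `lam + (1 - lam) ζ ^ a ≠ 0`; from `ha`: `ζ ^ a ≠ 1`
(else `-1 = (ζ ^ (2 ^ n)) ^ a = (ζ ^ a) ^ (2 ^ n) = 1`).
Induction on `N`; `N = 0` is `ch_nil` with `K = 0`.  Step: given the chain with multiplier
`Φ = r ^ N` (real), mass `K`, cross term `ρ K`, apply `ch_step` twice:
1. `k₀ = (a : ZMod m)`, `s₀ = 0`, `s₀' = (b : ZMod m)`, `ν₁ = M Φ`
   (`ph ζ (a : ZMod m) = ζ ^ a` by `ph_natCast`): mass `+ ‖ν₁‖² w`, cross term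
   `+ Re (conj (ν₁ (1 - ζ^a)) ((1 - ζ^b) Φ)) = ρ ‖ν₁‖² w`
   [`Re (conj z * v) = ‖z‖² Re (v / z)` for `z = M (1 - ζ^a) ≠ 0`, `v = 1 - ζ^b`];
2. `k₀ = -(a : ZMod m)`, `s₀ = 0`, `s₀' = -(b : ZMod m)`, `ν₂ = conj M * ν₁ = r Φ`
   (`ph ζ (-j) = conj (ph ζ j)`, since `ph ζ (-j) * ph ζ j = ph ζ 0 = 1` and `‖ph ζ j‖ = 1`; the
   step equation is the complex conjugate of the one in 1. because `lam, mu` are real): mass
   `+ ‖ν₂‖² w` (`‖1 - conj (ζ^a)‖ = ‖1 - ζ^a‖`), cross term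
   `+ Re (conj (ν₂ (1 - conj (ζ^a))) ((1 - conj (ζ^b)) ν₁)) = ρ ‖ν₂‖² w`.
New multiplier `r Φ = r ^ (N + 1)`, new mass `K' = K + (‖ν₁‖² + ‖ν₂‖²) w`, cross term `ρ K'`;
bound: `K' ≥ K + ‖ν₂‖² w ≥ w ((r^N)² - 1) + w (r^(N+1))² ≥ w ((r^(N+1))² - 1)`.
-/

namespace Vale.Agent.H97.GC

open Vale.Agent.H16.Kite
open scoped BigOperators ComplexConjugate

theorem gcl_ph_neg {m : ℕ} [NeZero m] {ζ : ℂ} (hζ : ζ ^ m = 1) (hn : ‖ζ‖ = 1) (j : ZMod m) :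
    ph ζ (-j) = conj (ph ζ j) := by
  have h1 : ph ζ (-j) * ph ζ j = 1 := by
    rw [← ph_add hζ, neg_add_cancel, ph_zero]
  have hnorm : ‖ph ζ j‖ = 1 := by
    unfold ph
    rw [norm_pow, hn, one_pow]
  have h2 : conj (ph ζ j) * ph ζ j = 1 := by
    rw [Complex.conj_mul', hnorm]
    norm_num
  have hne : ph ζ j ≠ 0 := by
    intro h0
    rw [h0, norm_zero] at hnorm
    exact zero_ne_one hnorm
  exact mul_right_cancel₀ hne (h1.trans h2.symm)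

theorem gcl_re_conj (z v : ℂ) (hz : z ≠ 0) : (conj z * v).re = ‖z‖ ^ 2 * (v / z).re := by
  have h : conj z * v = ((‖z‖ ^ 2 : ℝ) : ℂ) * (v / z) := by
    have e : ((‖z‖ ^ 2 : ℝ) : ℂ) = conj z * z := by
      rw [Complex.conj_mul']
      push_cast
      rfl
    rw [e]
    field_simp
  rw [h, Complex.re_ofReal_mul]

/-- One pair (tau-step, conjugate tau-step) prepended to a chain with real multiplier. -/
theorem gcl_pair {lam mu : ℝ} {m : ℕ} [NeZero m] {ζ : ℂ} (hζ : ζ ^ m = 1) (hn : ‖ζ‖ = 1)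
    (a b : ℕ) (hD : (lam : ℂ) + (1 - (lam : ℂ)) * ζ ^ a ≠ 0)
    (hM0 : tauM lam mu ζ a b ≠ 0) (ha1 : ζ ^ a ≠ 1)
    {L : ℕ} {φ K : ℝ} (h : Ch lam mu m ζ L (φ : ℂ) K (tauRho lam mu ζ a b * K)) :
    Ch lam mu m ζ (L + 1 + 1) ((‖tauM lam mu ζ a b‖ ^ 2 * φ : ℝ) : ℂ)
      (K + (‖tauM lam mu ζ a b‖ ^ 2 * φ ^ 2 + (‖tauM lam mu ζ a b‖ ^ 2 * φ) ^ 2)
        * ‖1 - ζ ^ a‖ ^ 2)
      (tauRho lam mu ζ a b * (K + (‖tauM lam mu ζ a b‖ ^ 2 * φ ^ 2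
        + (‖tauM lam mu ζ a b‖ ^ 2 * φ) ^ 2) * ‖1 - ζ ^ a‖ ^ 2)) := by
  have hρ : tauRho lam mu ζ a b
      = ((1 - ζ ^ b) / (tauM lam mu ζ a b * (1 - ζ ^ a))).re := rfl
  have hDM : ((lam : ℂ) + (1 - (lam : ℂ)) * ζ ^ a) * tauM lam mu ζ a b
      = (mu : ℂ) + (1 - (mu : ℂ)) * ζ ^ b := by
    unfold tauM
    field_simp
  generalize tauM lam mu ζ a b = M at hM0 hρ hDM ⊢
  generalize tauRho lam mu ζ a b = ρ at hρ h ⊢
  have pa : ph ζ ((a : ℕ) : ZMod m) = ζ ^ a := ph_natCast hζ a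
  have pb : ph ζ ((b : ℕ) : ZMod m) = ζ ^ b := ph_natCast hζ b
  have p0 : ph ζ (0 : ZMod m) = 1 := ph_zero ζ
  have pna : ph ζ (-((a : ℕ) : ZMod m)) = conj (ζ ^ a) := by rw [gcl_ph_neg hζ hn, pa]
  have pnb : ph ζ (-((b : ℕ) : ZMod m)) = conj (ζ ^ b) := by rw [gcl_ph_neg hζ hn, pb]
  have hDMc : ((lam : ℂ) + (1 - (lam : ℂ)) * conj (ζ ^ a)) * conj M
      = (mu : ℂ) + (1 - (mu : ℂ)) * conj (ζ ^ b) := by
    have h1 := congrArg conj hDM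
    rw [map_mul, map_add, map_add, map_mul, map_mul, map_sub, map_sub, map_one,
      Complex.conj_ofReal, Complex.conj_ofReal] at h1
    exact h1
  have hMM : conj M * M = (‖M‖ : ℂ) ^ 2 := Complex.conj_mul' M
  have hz : M * (1 - ζ ^ a) ≠ 0 := mul_ne_zero hM0 (sub_ne_zero.mpr (Ne.symm ha1))
  have hnz : ‖M * (1 - ζ ^ a)‖ ^ 2 = ‖M‖ ^ 2 * ‖1 - ζ ^ a‖ ^ 2 := by
    rw [norm_mul, mul_pow]
  have step1 := ch_step h ((a : ℕ) : ZMod m) 0 ((b : ℕ) : ZMod m) (M * (φ : ℂ)) (by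
    rw [p0, pa, pb]
    linear_combination (-(φ : ℂ)) * hDM)
  have step2 := ch_step step1 (-((a : ℕ) : ZMod m)) 0 (-((b : ℕ) : ZMod m))
    (conj M * (M * (φ : ℂ))) (by
    rw [p0, pna, pnb]
    linear_combination (-(M * (φ : ℂ))) * hDMc)
  rw [p0, pa, pb] at step2
  rw [pna, pnb] at step2
  refine ch_congr step2 ?_ ?_ ?_
  · rw [← mul_assoc, hMM]
    push_cast
    ring
  · have n1 : ‖M * (φ : ℂ)‖ ^ 2 = ‖M‖ ^ 2 * φ ^ 2 := by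
      rw [norm_mul, mul_pow, Complex.norm_real, Real.norm_eq_abs, sq_abs]
    have n2 : ‖conj M * (M * (φ : ℂ))‖ ^ 2 = (‖M‖ ^ 2 * φ) ^ 2 := by
      rw [norm_mul, norm_mul, RCLike.norm_conj, Complex.norm_real, Real.norm_eq_abs]
      have : (‖M‖ * (‖M‖ * |φ|)) ^ 2 = (‖M‖ ^ 2) ^ 2 * |φ| ^ 2 := by ring
      rw [this, sq_abs]
      ring
    have n3 : ‖1 - conj (ζ ^ a)‖ = ‖1 - ζ ^ a‖ := by
      have : (1 : ℂ) - conj (ζ ^ a) = conj (1 - ζ ^ a) := by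
        rw [map_sub, map_one]
      rw [this, RCLike.norm_conj]
    rw [n1, n2, n3]
    ring
  · have t1 : (conj (M * (φ : ℂ) * (1 - ζ ^ a)) * ((1 - ζ ^ b) * (φ : ℂ))).re
        = ρ * (‖M‖ ^ 2 * φ ^ 2 * ‖1 - ζ ^ a‖ ^ 2) := by
      have e : conj (M * (φ : ℂ) * (1 - ζ ^ a)) * ((1 - ζ ^ b) * (φ : ℂ))
          = ((φ ^ 2 : ℝ) : ℂ) * (conj (M * (1 - ζ ^ a)) * (1 - ζ ^ b)) := by
        rw [map_mul, map_mul, map_mul, Complex.conj_ofReal]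
        push_cast
        ring
      rw [e, Complex.re_ofReal_mul, gcl_re_conj _ _ hz, hnz, ← hρ]
      ring
    have t2 : (conj (conj M * (M * (φ : ℂ)) * (1 - conj (ζ ^ a)))
          * ((1 - conj (ζ ^ b)) * (M * (φ : ℂ)))).re
        = ρ * ((‖M‖ ^ 2 * φ) ^ 2 * ‖1 - ζ ^ a‖ ^ 2) := by
      have e : conj (conj M * (M * (φ : ℂ)) * (1 - conj (ζ ^ a)))
            * ((1 - conj (ζ ^ b)) * (M * (φ : ℂ)))
          = ((‖M‖ ^ 2 * φ ^ 2 : ℝ) : ℂ) * conj (conj (M * (1 - ζ ^ a)) * (1 - ζ ^ b)) := by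
        simp only [map_mul, map_sub, map_one, Complex.conj_conj, Complex.conj_ofReal]
        push_cast
        linear_combination ((φ : ℂ) ^ 2 * M * (1 - ζ ^ a) * (1 - conj (ζ ^ b))) * hMM
      rw [e, Complex.re_ofReal_mul, Complex.conj_re, gcl_re_conj _ _ hz, hnz, ← hρ]
      ring
    rw [t1, t2]
    ring

/-- `N` pairs (tau-step, conjugate tau-step): multiplier `(‖M‖²)^N`, cross term `ρ K`, and the
kink mass `K` is at least `‖1 - ζ^a‖² ((‖M‖²)^(2N) - 1)`. -/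
theorem ch_ladder (lam mu : ℝ) (n : ℕ) (hn : 1 ≤ n) (ζ : ℂ) (hζ : ζ ^ (2 ^ n) = -1) (a b : ℕ)
    (ha : Odd a) (hM : 1 < ‖tauM lam mu ζ a b‖) (N : ℕ) :
    ∃ K : ℝ, Ch lam mu (2 ^ (n + 1)) ζ (2 * N)
        ((((‖tauM lam mu ζ a b‖ ^ 2) ^ N : ℝ)) : ℂ) K (tauRho lam mu ζ a b * K) ∧
      ‖1 - ζ ^ a‖ ^ 2 * (((‖tauM lam mu ζ a b‖ ^ 2) ^ N) ^ 2 - 1) ≤ K := by
  have hζm : ζ ^ (2 ^ (n + 1)) = 1 := by
    rw [pow_succ, pow_mul, hζ]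
    norm_num
  have : NeZero (2 ^ (n + 1)) := ⟨by positivity⟩
  have hnorm : ‖ζ‖ = 1 := Complex.norm_eq_one_of_pow_eq_one hζm (by positivity)
  have hM0 : tauM lam mu ζ a b ≠ 0 := by
    intro h0
    rw [h0, norm_zero] at hM
    linarith
  have hD : (lam : ℂ) + (1 - (lam : ℂ)) * ζ ^ a ≠ 0 := by
    intro h0
    apply hM0
    unfold tauM
    rw [h0, div_zero]
  have ha1 : ζ ^ a ≠ 1 := by
    intro h1
    have h2 : (ζ ^ a) ^ (2 ^ n) = -1 := by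
      rw [← pow_mul, mul_comm, pow_mul, hζ, ha.neg_one_pow]
    rw [h1, one_pow] at h2
    norm_num at h2
  have hr1 : 1 ≤ ‖tauM lam mu ζ a b‖ ^ 2 := by nlinarith [hM]
  induction N with
  | zero =>
    refine ⟨0, ?_, ?_⟩
    · exact ch_congr (ch_nil lam mu (2 ^ (n + 1)) ζ) (by simp) rfl (by simp)
    · simp
  | succ N ih =>
    obtain ⟨K, hCh, hb⟩ := ih
    have hpair := gcl_pair hζm hnorm a b hD hM0 ha1 hCh
    refine ⟨K + (‖tauM lam mu ζ a b‖ ^ 2 * ((‖tauM lam mu ζ a b‖ ^ 2) ^ N) ^ 2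
        + (‖tauM lam mu ζ a b‖ ^ 2 * (‖tauM lam mu ζ a b‖ ^ 2) ^ N) ^ 2) * ‖1 - ζ ^ a‖ ^ 2, ?_, ?_⟩
    · have e : 2 * (N + 1) = 2 * N + 1 + 1 := by ring
      rw [e]
      exact ch_congr hpair (by rw [pow_succ]; ring_nf) rfl rfl
    · have hw : 0 ≤ ‖1 - ζ ^ a‖ ^ 2 := sq_nonneg _
      have hq : 0 ≤ (‖tauM lam mu ζ a b‖ ^ 2) ^ N := by positivity
      have e2 : (‖tauM lam mu ζ a b‖ ^ 2) ^ (N + 1)
          = ‖tauM lam mu ζ a b‖ ^ 2 * (‖tauM lam mu ζ a b‖ ^ 2) ^ N := by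
        rw [pow_succ]
        ring
      rw [e2]
      nlinarith [mul_nonneg hw (sq_nonneg ((‖tauM lam mu ζ a b‖ ^ 2) ^ N)),
        mul_nonneg hw (mul_nonneg (sq_nonneg ‖tauM lam mu ζ a b‖)
          (sq_nonneg ((‖tauM lam mu ζ a b‖ ^ 2) ^ N)))]

end Vale.Agent.H97.GC
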