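import Vale.Agent.H97.GC.Tau

/-!
# Tau-steps with ratio close to the extremal value (support for P058)

TASK GC-T (pure analysis).  Prove `exists_tau_node` (statement unchanged; helper lemmas with
fresh names starting `gct_` inside this file).  `tauM`, `tauRho`, `zetaN` are in Tau.lean.
Sketch.  `g := √(lam (1 - lam) / (mu (1 - mu))) > 0`.  Choose odd `a, b ≥ 1` with
`max Rs 0 < b / a < g` (e.g. `a = 2 j + 1` with `(g - max Rs 0) a > 2`, and `b` an odd integer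
in the interval `(max Rs 0 * a, g * a)` of length `> 2`).  Put `x = π / 2 ^ (n + 1)`, so that
`ζ_n ^ j = exp (2 i j x)` and `1 - ζ_n ^ j = -2 i sin (j x) exp (i j x)`,
`‖1 - ζ_n ^ j‖ = 2 |sin (j x)|`.  As `n → ∞`, `x → 0`:
* `(1 - ζ_n ^ b) / (1 - ζ_n ^ a) = (sin (b x) / sin (a x)) exp (i (b - a) x) → b / a`
  (`sin (c x) / x → c`, e.g. from `Real.hasDerivAt_sin` at `0` or `Real.tendsto_sin_div...`);
* `tauM → 1` (continuity, `ζ_n ^ j → 1`), hence `tauRho → b / a > max Rs 0`;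
* `‖mu + (1 - mu) w‖ ^ 2 = 1 - mu (1 - mu) ‖1 - w‖ ^ 2` for `‖w‖ = 1`, so
  `1 < ‖tauM‖` iff `mu (1 - mu) ‖1 - ζ_n ^ b‖ ^ 2 < lam (1 - lam) ‖1 - ζ_n ^ a‖ ^ 2`
  iff `(sin (b x) / sin (a x)) ^ 2 < g ^ 2`, which holds for large `n` since the left side tends
  to `(b / a) ^ 2 < g ^ 2`.
An equivalent closed form (if you prefer inequalities to limits): with `X = cot (a x)`,
`Y = cot (b x)`, `nu = 2 lam - 1`, `ka = 2 mu - 1`:
`tauRho = (nu ka + X Y) / (ka ^ 2 + Y ^ 2)` and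
`1 < ‖tauM‖ ↔ (1 - ka ^ 2) (1 + X ^ 2) < (1 - nu ^ 2) (1 + Y ^ 2)`.
-/

namespace Vale.Agent.H97.GC

/-- Powers of `ζ_n` as squares of half-angle points. -/
theorem gct_pow (n j : ℕ) :
    zetaN n ^ j =
      (((Real.cos ((j : ℝ) * (Real.pi / 2 ^ (n + 1))) : ℝ) : ℂ) +
        ((Real.sin ((j : ℝ) * (Real.pi / 2 ^ (n + 1))) : ℝ) : ℂ) * Complex.I) ^ 2 := by
  unfold zetaN
  rw [← Complex.exp_nat_mul, Complex.ofReal_cos, Complex.ofReal_sin, ← Complex.exp_mul_I,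
    ← Complex.exp_nat_mul]
  congr 1
  push_cast
  field_simp
  ring

/-- Choice of the two odd step counts. -/
theorem gct_choose (s r : ℝ) (hr0 : 0 ≤ r) (hrs : r < s) :
    ∃ a b : ℕ, Odd a ∧ Odd b ∧ r * (a : ℝ) < (b : ℝ) ∧ (b : ℝ) < s * (a : ℝ) := by
  obtain ⟨k, hkodd, hk⟩ : ∃ k : ℕ, Odd k ∧ 2 < (k : ℝ) * (s - r) := by
    obtain ⟨n, hn⟩ := exists_nat_gt (2 / (s - r))
    have hsr : 0 < s - r := by linarith
    rw [div_lt_iff₀ hsr] at hn
    refine ⟨2 * n + 1, odd_two_mul_add_one n, ?_⟩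
    push_cast
    have hn0 : (0 : ℝ) ≤ (n : ℝ) := Nat.cast_nonneg n
    nlinarith
  have hk' : 2 < s * (k : ℝ) - r * (k : ℝ) := by
    have e : (k : ℝ) * (s - r) = s * (k : ℝ) - r * (k : ℝ) := by ring
    linarith
  have hak : 0 ≤ r * (k : ℝ) := mul_nonneg hr0 (Nat.cast_nonneg k)
  have h1 : r * (k : ℝ) < ((⌊r * (k : ℝ)⌋₊ + 1 : ℕ) : ℝ) := by
    push_cast
    exact Nat.lt_floor_add_one _
  have h2 : ((⌊r * (k : ℝ)⌋₊ + 1 : ℕ) : ℝ) ≤ r * (k : ℝ) + 1 := by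
    push_cast
    have h3 := Nat.floor_le hak
    linarith
  rcases Nat.even_or_odd (⌊r * (k : ℝ)⌋₊ + 1) with he | ho
  · refine ⟨k, ⌊r * (k : ℝ)⌋₊ + 1 + 1, hkodd, he.add_one, ?_, ?_⟩
    · push_cast at h1 ⊢
      linarith
    · push_cast at h2 ⊢
      linarith
  · exact ⟨k, ⌊r * (k : ℝ)⌋₊ + 1, hkodd, ho, h1, by linarith⟩

/-- Algebraic core: the multiplier and the ratio in terms of half-angle sines and cosines. -/
theorem gct_alg (lam mu cA sA cB sB : ℝ) (hA : cA ^ 2 + sA ^ 2 = 1) (hB : cB ^ 2 + sB ^ 2 = 1)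
    (hcA : 0 < cA) (hsA : 0 < sA) (hcB : 0 < cB)
    (hlt : mu * (1 - mu) * sB ^ 2 < lam * (1 - lam) * sA ^ 2) (ζ : ℂ) (a b : ℕ)
    (hζa : ζ ^ a = ((cA : ℂ) + (sA : ℂ) * Complex.I) ^ 2)
    (hζb : ζ ^ b = ((cB : ℂ) + (sB : ℂ) * Complex.I) ^ 2) :
    1 < ‖tauM lam mu ζ a b‖ ∧
      tauRho lam mu ζ a b =
        sB * (cA * cB + (1 - 2 * lam) * (1 - 2 * mu) * sA * sB) /
          (sA * (cB ^ 2 + (1 - 2 * mu) ^ 2 * sB ^ 2)) := by
  have hA' : (cA : ℂ) ^ 2 + (sA : ℂ) ^ 2 = 1 := by exact_mod_cast hA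
  have hB' : (cB : ℂ) ^ 2 + (sB : ℂ) ^ 2 = 1 := by exact_mod_cast hB
  obtain ⟨eA, heA⟩ : ∃ eA : ℂ, eA = (cA : ℂ) + (sA : ℂ) * Complex.I := ⟨_, rfl⟩
  obtain ⟨eB, heB⟩ : ∃ eB : ℂ, eB = (cB : ℂ) + (sB : ℂ) * Complex.I := ⟨_, rfl⟩
  obtain ⟨wA, hwA⟩ : ∃ wA : ℂ,
      wA = (cA : ℂ) + (1 - 2 * (lam : ℂ)) * (sA : ℂ) * Complex.I := ⟨_, rfl⟩
  obtain ⟨wB, hwB⟩ : ∃ wB : ℂ,
      wB = (cB : ℂ) + (1 - 2 * (mu : ℂ)) * (sB : ℂ) * Complex.I := ⟨_, rfl⟩
  have hD : (lam : ℂ) + (1 - (lam : ℂ)) * ζ ^ a = eA * wA := by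
    rw [hζa, heA, hwA]
    linear_combination (lam : ℂ) * (sA : ℂ) ^ 2 * Complex.I_sq - (lam : ℂ) * hA'
  have hN : (mu : ℂ) + (1 - (mu : ℂ)) * ζ ^ b = eB * wB := by
    rw [hζb, heB, hwB]
    linear_combination (mu : ℂ) * (sB : ℂ) ^ 2 * Complex.I_sq - (mu : ℂ) * hB'
  have h1a : 1 - ζ ^ a = -(2 * (sA : ℂ) * Complex.I * eA) := by
    rw [hζa, heA]
    linear_combination (sA : ℂ) ^ 2 * Complex.I_sq - hA'
  have h1b : 1 - ζ ^ b = -(2 * (sB : ℂ) * Complex.I * eB) := by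
    rw [hζb, heB]
    linear_combination (sB : ℂ) ^ 2 * Complex.I_sq - hB'
  have hneA : ‖eA‖ = 1 := by
    have h := Complex.sq_norm eA
    rw [Complex.normSq_apply] at h
    have hre : eA.re = cA := by simp [heA]
    have him : eA.im = sA := by simp [heA]
    rw [hre, him] at h
    have h1 : ‖eA‖ ^ 2 = 1 := by rw [h]; nlinarith
    exact (pow_eq_one_iff_of_nonneg (norm_nonneg _) two_ne_zero).mp h1
  have hneB : ‖eB‖ = 1 := by
    have h := Complex.sq_norm eB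
    rw [Complex.normSq_apply] at h
    have hre : eB.re = cB := by simp [heB]
    have him : eB.im = sB := by simp [heB]
    rw [hre, him] at h
    have h1 : ‖eB‖ ^ 2 = 1 := by rw [h]; nlinarith
    exact (pow_eq_one_iff_of_nonneg (norm_nonneg _) two_ne_zero).mp h1
  have hwAre : wA.re = cA := by simp [hwA]
  have hwAim : wA.im = (1 - 2 * lam) * sA := by simp [hwA]
  have hwBre : wB.re = cB := by simp [hwB]
  have hwBim : wB.im = (1 - 2 * mu) * sB := by simp [hwB]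
  have hwA2 : ‖wA‖ ^ 2 = cA ^ 2 + (1 - 2 * lam) ^ 2 * sA ^ 2 := by
    have h := Complex.sq_norm wA
    rw [Complex.normSq_apply, hwAre, hwAim] at h
    rw [h]
    ring
  have hwB2 : ‖wB‖ ^ 2 = cB ^ 2 + (1 - 2 * mu) ^ 2 * sB ^ 2 := by
    have h := Complex.sq_norm wB
    rw [Complex.normSq_apply, hwBre, hwBim] at h
    rw [h]
    ring
  have hwApos : 0 < ‖wA‖ := by
    have h0 : 0 < ‖wA‖ ^ 2 := by
      rw [hwA2]
      exact add_pos_of_pos_of_nonneg (pow_pos hcA 2) (by positivity)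
    exact lt_of_le_of_ne (norm_nonneg wA) (fun h1 => by rw [← h1] at h0; simp at h0)
  have hwBpos : 0 < ‖wB‖ := by
    have h0 : 0 < ‖wB‖ ^ 2 := by
      rw [hwB2]
      exact add_pos_of_pos_of_nonneg (pow_pos hcB 2) (by positivity)
    exact lt_of_le_of_ne (norm_nonneg wB) (fun h1 => by rw [← h1] at h0; simp at h0)
  have hwA0 : wA ≠ 0 := norm_pos_iff.mp hwApos
  have hwB0 : wB ≠ 0 := norm_pos_iff.mp hwBpos
  have heA0 : eA ≠ 0 := by
    intro h0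
    rw [h0, norm_zero] at hneA
    exact zero_ne_one hneA
  have heB0 : eB ≠ 0 := by
    intro h0
    rw [h0, norm_zero] at hneB
    exact zero_ne_one hneB
  have hsA' : (sA : ℂ) ≠ 0 := by exact_mod_cast hsA.ne'
  have hM : tauM lam mu ζ a b = eB * wB / (eA * wA) := by
    unfold tauM
    rw [hD, hN]
  have hlt' : ‖wA‖ < ‖wB‖ := by
    by_contra hcon
    have hcon' : ‖wB‖ ≤ ‖wA‖ := not_lt.mp hcon
    have h1 : ‖wB‖ ^ 2 ≤ ‖wA‖ ^ 2 := pow_le_pow_left₀ (norm_nonneg _) hcon' 2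
    rw [hwA2, hwB2] at h1
    nlinarith
  refine ⟨?_, ?_⟩
  · rw [hM, norm_div, norm_mul, norm_mul, hneA, hneB, one_mul, one_mul, one_lt_div hwApos]
    exact hlt'
  · have key : (1 - ζ ^ b) / (tauM lam mu ζ a b * (1 - ζ ^ a)) =
        ((sB / sA : ℝ) : ℂ) * (wA / wB) := by
      rw [hM, h1a, h1b]
      push_cast
      field_simp
    unfold tauRho
    rw [key, Complex.re_ofReal_mul, Complex.div_re, Complex.normSq_apply, hwAre, hwAim, hwBre,
      hwBim]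
    have hpos : 0 < cB ^ 2 + (1 - 2 * mu) ^ 2 * sB ^ 2 :=
      add_pos_of_pos_of_nonneg (pow_pos hcB 2) (by positivity)
    have hpos' : cB * cB + (1 - 2 * mu) * sB * ((1 - 2 * mu) * sB) ≠ 0 := by
      have e : cB * cB + (1 - 2 * mu) * sB * ((1 - 2 * mu) * sB) =
          cB ^ 2 + (1 - 2 * mu) ^ 2 * sB ^ 2 := by ring
      rw [e]
      exact hpos.ne'
    have hsA0 : sA ≠ 0 := hsA.ne'
    field_simp

/-- `sin y = y * sinc y`. -/
theorem gct_sin_eq (y : ℝ) : Real.sin y = y * Real.sinc y := by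
  by_cases h : y = 0
  · simp [h]
  · rw [Real.sinc_of_ne_zero h]
    field_simp

/-- Multiplying a strict inequality between the normalised quantities by `x > 0`. -/
theorem gct_final (x Da Db sa sb P Q R : ℝ) (hx : 0 < x) (hsa : sa = x * Da) (hsb : sb = x * Db)
    (h : 0 < Db * P - R * (Da * Q)) : R * (sa * Q) < sb * P := by
  have h1 := mul_pos hx h
  have e : x * Db * P - R * (x * Da * Q) = x * (Db * P - R * (Da * Q)) := by ring
  rw [hsa, hsb]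
  linarith

/-- The real inequalities for small angles: a soft continuity argument at `x = 0` after dividing
the sines by `x` (`Real.sinc`). -/
theorem gct_small (lam mu R a b : ℝ) (ha : 0 < a)
    (h2 : mu * (1 - mu) * b ^ 2 < lam * (1 - lam) * a ^ 2) (h3 : R * a < b) :
    ∃ ε : ℝ, 0 < ε ∧ ∀ x : ℝ, 0 < x → x < ε →
      0 < Real.cos (a * x) ∧ 0 < Real.sin (a * x) ∧ 0 < Real.cos (b * x) ∧
      mu * (1 - mu) * Real.sin (b * x) ^ 2 < lam * (1 - lam) * Real.sin (a * x) ^ 2 ∧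
      R * (Real.sin (a * x) *
          (Real.cos (b * x) ^ 2 + (1 - 2 * mu) ^ 2 * Real.sin (b * x) ^ 2)) <
        Real.sin (b * x) * (Real.cos (a * x) * Real.cos (b * x) +
          (1 - 2 * lam) * (1 - 2 * mu) * Real.sin (a * x) * Real.sin (b * x)) := by
  have cs : Continuous Real.sinc := Real.continuous_sinc
  have c1 : Continuous (fun x : ℝ => Real.cos (a * x)) := by fun_prop
  have c2 : Continuous (fun x : ℝ => Real.cos (b * x)) := by fun_prop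
  have c3 : Continuous (fun x : ℝ => Real.sinc (a * x)) := cs.comp (by fun_prop)
  have c3b : Continuous (fun x : ℝ => Real.sinc (b * x)) := cs.comp (by fun_prop)
  have c4 : Continuous (fun x : ℝ => lam * (1 - lam) * (a * Real.sinc (a * x)) ^ 2 -
      mu * (1 - mu) * (b * Real.sinc (b * x)) ^ 2) := by fun_prop
  have c5 : Continuous (fun x : ℝ => b * Real.sinc (b * x) *
      (Real.cos (a * x) * Real.cos (b * x) +
        (1 - 2 * lam) * (1 - 2 * mu) * Real.sin (a * x) * Real.sin (b * x)) -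
      R * (a * Real.sinc (a * x) *
        (Real.cos (b * x) ^ 2 + (1 - 2 * mu) ^ 2 * Real.sin (b * x) ^ 2))) := by fun_prop
  have e1 : ∀ᶠ x in nhds (0 : ℝ), 0 < Real.cos (a * x) :=
    continuousAt_const.eventually_lt c1.continuousAt (by simp)
  have e2 : ∀ᶠ x in nhds (0 : ℝ), 0 < Real.cos (b * x) :=
    continuousAt_const.eventually_lt c2.continuousAt (by simp)
  have e3 : ∀ᶠ x in nhds (0 : ℝ), 0 < Real.sinc (a * x) :=
    continuousAt_const.eventually_lt c3.continuousAt (by simp)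
  have e4 : ∀ᶠ x in nhds (0 : ℝ), 0 < lam * (1 - lam) * (a * Real.sinc (a * x)) ^ 2 -
      mu * (1 - mu) * (b * Real.sinc (b * x)) ^ 2 := by
    apply continuousAt_const.eventually_lt c4.continuousAt
    simp only [mul_zero, Real.sinc_zero, mul_one]
    linarith
  have e5 : ∀ᶠ x in nhds (0 : ℝ), 0 < b * Real.sinc (b * x) *
      (Real.cos (a * x) * Real.cos (b * x) +
        (1 - 2 * lam) * (1 - 2 * mu) * Real.sin (a * x) * Real.sin (b * x)) -
      R * (a * Real.sinc (a * x) *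
        (Real.cos (b * x) ^ 2 + (1 - 2 * mu) ^ 2 * Real.sin (b * x) ^ 2)) := by
    apply continuousAt_const.eventually_lt c5.continuousAt
    simp only [mul_zero, Real.sinc_zero, mul_one, Real.cos_zero, Real.sin_zero, add_zero]
    norm_num
    linarith
  obtain ⟨ε, hε, hball⟩ := Metric.eventually_nhds_iff.mp (e1.and (e2.and (e3.and (e4.and e5))))
  refine ⟨ε, hε, ?_⟩
  intro x hx0 hxε
  have hdist : dist x 0 < ε := by
    rw [Real.dist_eq, sub_zero, abs_of_pos hx0]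
    exact hxε
  obtain ⟨p1, p2, p3, p4, p5⟩ := hball hdist
  have hsa : Real.sin (a * x) = x * (a * Real.sinc (a * x)) := by
    rw [gct_sin_eq (a * x)]
    ring
  have hsb : Real.sin (b * x) = x * (b * Real.sinc (b * x)) := by
    rw [gct_sin_eq (b * x)]
    ring
  have hsinA : 0 < Real.sin (a * x) := by
    rw [hsa]
    exact mul_pos hx0 (mul_pos ha p3)
  refine ⟨p1, hsinA, p2, ?_, ?_⟩
  · have e : lam * (1 - lam) * Real.sin (a * x) ^ 2 - mu * (1 - mu) * Real.sin (b * x) ^ 2 =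
        x ^ 2 * (lam * (1 - lam) * (a * Real.sinc (a * x)) ^ 2 -
          mu * (1 - mu) * (b * Real.sinc (b * x)) ^ 2) := by
      rw [hsa, hsb]
      ring
    have h5 := mul_pos (pow_pos hx0 2) p4
    linarith
  · exact gct_final x _ _ _ _ _ _ R hx0 hsa hsb p5

/-- For every `Rs` below `g = √(lam (1 - lam) / (mu (1 - mu)))` there are odd `a, b` such that
for all large `n` the tau-step with root `ζ_n = exp (π i / 2^n)`, kink phase `ζ_n^a` and edge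
phases `1, ζ_n^b` has multiplier of modulus `> 1` and ratio `> max Rs 0`. -/
theorem exists_tau_node (lam mu : ℝ) (hl0 : 0 < lam) (hl1 : lam < 1) (hm0 : 0 < mu) (hm1 : mu < 1)
    (Rs : ℝ) (hRs : Rs < Real.sqrt (lam * (1 - lam) / (mu * (1 - mu)))) :
    ∃ (a b n₀ : ℕ), Odd a ∧ Odd b ∧ ∀ n, n₀ ≤ n →
      1 < ‖tauM lam mu (zetaN n) a b‖ ∧ Rs < tauRho lam mu (zetaN n) a b ∧
        0 < tauRho lam mu (zetaN n) a b := by
  obtain ⟨g, hg⟩ : ∃ g : ℝ, g = Real.sqrt (lam * (1 - lam) / (mu * (1 - mu))) := ⟨_, rfl⟩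
  rw [← hg] at hRs
  have hnum : 0 < lam * (1 - lam) := mul_pos hl0 (by linarith)
  have hden : 0 < mu * (1 - mu) := mul_pos hm0 (by linarith)
  have hq : 0 < lam * (1 - lam) / (mu * (1 - mu)) := div_pos hnum hden
  have hg0 : 0 < g := by
    rw [hg]
    exact Real.sqrt_pos.mpr hq
  have hg2 : g ^ 2 = lam * (1 - lam) / (mu * (1 - mu)) := by
    rw [hg]
    exact Real.sq_sqrt hq.le
  have hg2' : mu * (1 - mu) * g ^ 2 = lam * (1 - lam) := by
    have hmu0 : mu ≠ 0 := hm0.ne'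
    have hmu1 : 1 - mu ≠ 0 := by
      intro h
      linarith
    rw [hg2]
    field_simp
  have hR0 : 0 ≤ max Rs 0 := le_max_right _ _
  have hRg : max Rs 0 < g := max_lt hRs hg0
  obtain ⟨a, b, ha_odd, hb_odd, hb_lo, hb_hi⟩ := gct_choose g (max Rs 0) hR0 hRg
  have ha1 : (0 : ℝ) < (a : ℝ) := Nat.cast_pos.mpr ha_odd.pos
  have hb1 : (0 : ℝ) < (b : ℝ) := Nat.cast_pos.mpr hb_odd.pos
  have h2 : mu * (1 - mu) * (b : ℝ) ^ 2 < lam * (1 - lam) * (a : ℝ) ^ 2 := by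
    rw [← hg2']
    have h5 : (b : ℝ) ^ 2 < (g * (a : ℝ)) ^ 2 := pow_lt_pow_left₀ hb_hi hb1.le two_ne_zero
    have h6 := mul_lt_mul_of_pos_left h5 hden
    have e : mu * (1 - mu) * g ^ 2 * (a : ℝ) ^ 2 = mu * (1 - mu) * (g * (a : ℝ)) ^ 2 := by
      ring
    rw [e]
    exact h6
  obtain ⟨ε, hε, hsmall⟩ := gct_small lam mu (max Rs 0) (a : ℝ) (b : ℝ) ha1 h2 hb_lo
  refine ⟨a, b, ⌈Real.pi / ε⌉₊ + 1, ha_odd, hb_odd, ?_⟩
  intro n hn
  obtain ⟨x, hx⟩ : ∃ x : ℝ, x = Real.pi / 2 ^ (n + 1) := ⟨_, rfl⟩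
  have hx0 : 0 < x := by
    rw [hx]
    positivity
  have hpow : (n : ℝ) < 2 ^ (n + 1) := by
    have h1 : n < 2 ^ (n + 1) := lt_trans (Nat.lt_succ_self n) Nat.lt_two_pow_self
    exact_mod_cast h1
  have hxε : x < ε := by
    have h1 : Real.pi / ε ≤ (⌈Real.pi / ε⌉₊ : ℝ) := Nat.le_ceil _
    have h3 : ((⌈Real.pi / ε⌉₊ + 1 : ℕ) : ℝ) ≤ (n : ℝ) := by exact_mod_cast hn
    push_cast at h3
    have h4 : Real.pi / ε < (n : ℝ) := by linarith
    have h5 : Real.pi < (n : ℝ) * ε := (div_lt_iff₀ hε).mp h4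
    have h6 : (n : ℝ) * ε < 2 ^ (n + 1) * ε := mul_lt_mul_of_pos_right hpow hε
    rw [hx, div_lt_iff₀ (by positivity)]
    linarith
  obtain ⟨hcosA, hsinA, hcosB, hlt, hrho⟩ := hsmall x hx0 hxε
  have hζa : zetaN n ^ a = (((Real.cos ((a : ℝ) * x) : ℝ) : ℂ) +
      ((Real.sin ((a : ℝ) * x) : ℝ) : ℂ) * Complex.I) ^ 2 := by
    rw [hx]
    exact gct_pow n a
  have hζb : zetaN n ^ b = (((Real.cos ((b : ℝ) * x) : ℝ) : ℂ) +
      ((Real.sin ((b : ℝ) * x) : ℝ) : ℂ) * Complex.I) ^ 2 := by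
    rw [hx]
    exact gct_pow n b
  obtain ⟨r1, r2⟩ := gct_alg lam mu (Real.cos ((a : ℝ) * x)) (Real.sin ((a : ℝ) * x))
    (Real.cos ((b : ℝ) * x)) (Real.sin ((b : ℝ) * x))
    (Real.cos_sq_add_sin_sq _) (Real.cos_sq_add_sin_sq _) hcosA hsinA hcosB hlt (zetaN n) a b
    hζa hζb
  have hpos : 0 < Real.sin ((a : ℝ) * x) * (Real.cos ((b : ℝ) * x) ^ 2 +
      (1 - 2 * mu) ^ 2 * Real.sin ((b : ℝ) * x) ^ 2) :=
    mul_pos hsinA (add_pos_of_pos_of_nonneg (pow_pos hcosB 2) (by positivity))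
  have hmain : max Rs 0 < tauRho lam mu (zetaN n) a b := by
    rw [r2, lt_div_iff₀ hpos]
    exact hrho
  exact ⟨r1, lt_of_le_of_lt (le_max_left _ _) hmain, lt_of_le_of_lt hR0 hmain⟩

end Vale.Agent.H97.GC
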