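import Vale.Agent.H97.GC.Family
import Vale.Agent.H97.GC.TauNode
import Vale.Agent.H97.GC.Gadget
import Vale.Agent.H97.GC.Composite
import Vale.Agent.H16.GQ.Mix
import Vale.Agent.H16.GQ.Flip
import Vale.Agent.H16.GQ.Bridge

/-!
# Every cyclic quadrilateral with rational diagonal ratios is Ramsey (support for P058)

Assembly of the chain + gadget route: a tau-step with ratio close to the extremal value
(`exists_tau_node`), a chain with rational multiplier dominated by a ladder of such steps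
(`ch_family`), a single-kink gadget with kink value `1 / Φ` (`wach_rat`) and the composite
structure (`ps_of_ch_wach`) give permutation structures in `2`-groups with cross ratio
arbitrarily close to `± √(lam (1 - lam) / (mu (1 - mu)))`.
-/

namespace Vale.Agent.H97.GC

open Vale.Agent.H16.Kite

/-- The upper end, for `mu ≤ 1/2`. -/
theorem ps_two_pos (lam mu : ℚ) (hl0 : 0 < lam) (hl1 : lam < 1) (hm0 : 0 < mu) (hm : mu ≤ 1 / 2)
    (Rs : ℝ) (hRs : Rs < Real.sqrt ((lam : ℝ) * (1 - lam) / (mu * (1 - mu)))) :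
    ∃ R : ℝ, Rs ≤ R ∧ PS True (lam : ℝ) (mu : ℝ) R := by
  have hl0' : (0 : ℝ) < lam := by exact_mod_cast hl0
  have hl1' : (lam : ℝ) < 1 := by exact_mod_cast hl1
  have hm0' : (0 : ℝ) < mu := by exact_mod_cast hm0
  have hm1 : mu < 1 := by linarith
  have hm1' : (mu : ℝ) < 1 := by exact_mod_cast hm1
  obtain ⟨a, b, n₀, ha, hb, hall⟩ :=
    exists_tau_node (lam : ℝ) (mu : ℝ) hl0' hl1' hm0' hm1' Rs hRs
  obtain ⟨n, hn₀, hn⟩ : ∃ n, n₀ ≤ n ∧ 1 ≤ n := ⟨max n₀ 1, le_max_left _ _, le_max_right _ _⟩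
  obtain ⟨hM, hρ, hρ0⟩ := hall n hn₀
  have hζ : zetaN n ^ (2 ^ n) = -1 := zetaN_pow n
  generalize zetaN n = ζ at hM hρ hρ0 hζ
  set ρ := tauRho (lam : ℝ) (mu : ℝ) ζ a b with hρdef
  have hmax : max Rs 0 < ρ := max_lt hρ hρ0
  set ε : ℝ := (ρ - max Rs 0) / ρ with hε
  have hε0 : 0 < ε := by
    rw [hε]
    exact div_pos (by linarith) hρ0
  obtain ⟨L, Φ, K, X, hΦ1, hΦ2, hch, hK, hX⟩ :=
    ch_family lam mu hl0 hl1 hm0 hm1 n a b hn ha hb ζ hζ hM hρ0 ε hε0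
  have hLle : L ≤ 2 ^ L - 1 := by
    have := Nat.lt_two_pow_self (n := L)
    omega
  have hpad := ch_pad hch (2 ^ L - 1 - L)
  rw [Nat.add_sub_cancel' hLle] at hpad
  have hΦ0 : (0 : ℚ) < Φ := by linarith
  obtain ⟨p, hw⟩ := wach_rat mu hm0 hm (1 / Φ) (by positivity)
    (by rw [div_lt_one hΦ0]; exact hΦ1)
  have hw' : WAch (mu : ℝ) (1 / (Φ : ℝ)) p := by
    have e : ((1 / Φ : ℚ) : ℝ) = 1 / (Φ : ℝ) := by push_cast; ring
    rw [← e]
    exact hw
  have hΦne : (Φ : ℝ) ≠ 0 := by exact_mod_cast hΦ0.ne'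
  have hps := ps_of_ch_wach n L hn hζ hpad hK hΦne hw'
  refine ⟨X / K, ?_, hps⟩
  have e1 : ρ * (1 - ε) = max Rs 0 := by
    rw [hε]
    field_simp
    ring
  rw [le_div_iff₀ hK]
  calc Rs * K ≤ max Rs 0 * K := mul_le_mul_of_nonneg_right (le_max_left _ _) hK.le
    _ = ρ * (1 - ε) * K := by rw [e1]
    _ ≤ X := hX

/-- Both ends, for all rational `lam, mu ∈ (0, 1)`. -/
theorem ps_two_both (lam mu : ℚ) (hl0 : 0 < lam) (hl1 : lam < 1) (hm0 : 0 < mu) (hm1 : mu < 1)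
    (Rs : ℝ) (hRs : Rs < Real.sqrt ((lam : ℝ) * (1 - lam) / (mu * (1 - mu)))) :
    (∃ R : ℝ, Rs ≤ R ∧ PS True (lam : ℝ) (mu : ℝ) R) ∧
      (∃ R : ℝ, R ≤ -Rs ∧ PS True (lam : ℝ) (mu : ℝ) R) := by
  have hl0' : (0 : ℚ) < 1 - lam := by linarith
  have hl1' : (1 : ℚ) - lam < 1 := by linarith
  have hm0' : (0 : ℚ) < 1 - mu := by linarith
  have hm1' : (1 : ℚ) - mu < 1 := by linarith
  have e1 : (((1 - lam : ℚ)) : ℝ) = 1 - (lam : ℝ) := by push_cast; ring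
  have e2 : (((1 - mu : ℚ)) : ℝ) = 1 - (mu : ℝ) := by push_cast; ring
  have g1 : Real.sqrt ((((1 - lam : ℚ)) : ℝ) * (1 - ((1 - lam : ℚ) : ℝ)) / ((mu : ℝ) * (1 - mu)))
      = Real.sqrt ((lam : ℝ) * (1 - lam) / (mu * (1 - mu))) := by
    rw [e1]
    congr 1
    ring
  have g2 : Real.sqrt ((lam : ℝ) * (1 - lam) / ((((1 - mu : ℚ)) : ℝ) * (1 - ((1 - mu : ℚ) : ℝ))))
      = Real.sqrt ((lam : ℝ) * (1 - lam) / (mu * (1 - mu))) := by
    rw [e2]
    congr 1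
    ring
  have g3 : Real.sqrt ((((1 - lam : ℚ)) : ℝ) * (1 - ((1 - lam : ℚ) : ℝ)) /
      ((((1 - mu : ℚ)) : ℝ) * (1 - ((1 - mu : ℚ) : ℝ))))
      = Real.sqrt ((lam : ℝ) * (1 - lam) / (mu * (1 - mu))) := by
    rw [e1, e2]
    congr 1
    ring
  rcases le_or_gt mu (1 / 2) with hm | hm
  · constructor
    · exact ps_two_pos lam mu hl0 hl1 hm0 hm Rs hRs
    · obtain ⟨R, hR, hps⟩ := ps_two_pos (1 - lam) mu hl0' hl1' hm0 hm Rs (by rw [g1]; exact hRs)
      rw [e1] at hps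
      exact ⟨-R, by linarith, ps_flip hps⟩
  · have hm' : 1 - mu ≤ 1 / 2 := by linarith
    constructor
    · obtain ⟨R, hR, hps⟩ := ps_two_pos (1 - lam) (1 - mu) hl0' hl1' hm0' hm' Rs
        (by rw [g3]; exact hRs)
      rw [e1, e2] at hps
      have h1 := ps_swap hps
      have h2 := ps_flip h1
      rw [neg_neg] at h2
      exact ⟨R, hR, h2⟩
    · obtain ⟨R, hR, hps⟩ := ps_two_pos lam (1 - mu) hl0 hl1 hm0' hm' Rs (by rw [g2]; exact hRs)
      rw [e2] at hps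
      exact ⟨-R, by linarith, ps_swap hps⟩

/-- Every cross ratio of modulus below `√(lam (1 - lam) / (mu (1 - mu)))` is realised by a
permutation structure in a `2`-group. -/
theorem ps_two_all (lam mu : ℚ) (hl0 : 0 < lam) (hl1 : lam < 1) (hm0 : 0 < mu) (hm1 : mu < 1)
    (c : ℝ) (hc : |c| < 1) :
    PS True (lam : ℝ) (mu : ℝ) (c * Real.sqrt ((lam : ℝ) * (1 - lam) / (mu * (1 - mu)))) := by
  have hl0' : (0 : ℝ) < lam := by exact_mod_cast hl0
  have hl1' : (lam : ℝ) < 1 := by exact_mod_cast hl1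
  have hm0' : (0 : ℝ) < mu := by exact_mod_cast hm0
  have hm1' : (mu : ℝ) < 1 := by exact_mod_cast hm1
  set g : ℝ := Real.sqrt ((lam : ℝ) * (1 - lam) / (mu * (1 - mu))) with hg
  have hgpos : 0 < g := by
    rw [hg]
    apply Real.sqrt_pos.mpr
    have h1 : (0 : ℝ) < 1 - lam := by linarith
    have h2 : (0 : ℝ) < 1 - mu := by linarith
    positivity
  have hlt : |c| * g < g := by
    nlinarith
  have hcg : c * g ≤ |c| * g := mul_le_mul_of_nonneg_right (le_abs_self c) hgpos.le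
  have hcg' : -(|c| * g) ≤ c * g := by
    have := mul_le_mul_of_nonneg_right (neg_abs_le c) hgpos.le
    linarith
  obtain ⟨⟨R₂, h2, p2⟩, ⟨R₁, h1, p1⟩⟩ := ps_two_both lam mu hl0 hl1 hm0 hm1 (|c| * g) hlt
  exact ps_mix p1 p2 (by linarith) (by linarith)

/-- **Every cyclic quadrilateral whose diagonals cut each other in rational ratios is Ramsey.** -/
theorem ramsey_gquad_rational (lam mu : ℚ) (hl0 : 0 < lam) (hl1 : lam < 1) (hm0 : 0 < mu)
    (hm1 : mu < 1) (c : ℝ) (hc : |c| < 1) : IsRamsey (gquad (lam : ℝ) (mu : ℝ) c) := by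
  have hl0' : (0 : ℝ) < lam := by exact_mod_cast hl0
  have hl1' : (lam : ℝ) < 1 := by exact_mod_cast hl1
  have hm0' : (0 : ℝ) < mu := by exact_mod_cast hm0
  have hm1' : (mu : ℝ) < 1 := by exact_mod_cast hm1
  exact ramsey_gquad_of_ps (lam : ℝ) (mu : ℝ) c hl0' hl1' hm0' hm1' hc
    (ps_two_all lam mu hl0 hl1 hm0 hm1 c hc)

end Vale.Agent.H97.GC
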