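import Mathlib

/-!
# The product over the odd powers of a `2`-power root of `-1` (support for P058)

TASK GC-N.  Prove `prod_odd_pow` and `prod_strip` (statements unchanged; helper lemmas with fresh
names starting `gcn_` inside this file).
`prod_odd_pow`: induction on `n ≥ 1` (for all `z a b`).  `n = 1`: `z ^ 2 = -1`,
`[a + b z] [a + b z ^ 3] = a ^ 2 + b ^ 2`.  Step `n → n + 1`: split `range (2 ^ (n + 1))` into
`i < 2 ^ n` and `i + 2 ^ n` (`Finset.prod_range_add` or `Finset.range_add` / `prod_union`);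
`z ^ (2 (i + 2 ^ n) + 1) = - z ^ (2 i + 1)` because `z ^ (2 ^ (n + 1)) = -1`; so the product is
`∏_{i < 2 ^ n} (a ^ 2 + (-(b ^ 2)) (z ^ 2) ^ (2 i + 1))`, and the induction hypothesis for
`z ^ 2`, `a ^ 2`, `-(b ^ 2)` gives `[a ^ 2] ^ (2 ^ n) + [-(b ^ 2)] ^ (2 ^ n)
= a ^ (2 ^ (n + 1)) + b ^ (2 ^ (n + 1))` (`2 ^ n` is even as `n ≥ 1`).
`prod_strip`: `2 ^ n = (2 ^ n - 2) + 1 + 1`; `Finset.prod_range_succ` splits off `i = 2 ^ n - 1`
(exponent `2 (2 ^ n - 1) + 1 = 2 ^ (n + 1) - 1`), `Finset.prod_range_succ'` splits off `i = 0`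
and shifts the rest (`2 (i + 1) + 1 = 2 i + 3`).
-/

namespace Vale.Agent.H97.GC

open scoped BigOperators

/-- `∏_{i < 2^n} (a + b z^(2i+1)) = a^(2^n) + b^(2^n)` when `z^(2^n) = -1`, `n ≥ 1`. -/
theorem prod_odd_pow (n : ℕ) (hn : 1 ≤ n) (z a b : ℂ) (hz : z ^ (2 ^ n) = -1) :
    ∏ i ∈ Finset.range (2 ^ n), (a + b * z ^ (2 * i + 1)) = a ^ (2 ^ n) + b ^ (2 ^ n) := by
  induction n, hn using Nat.le_induction generalizing z a b with
  | base =>
    have hz' : z ^ 2 = -1 := by simpa using hz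
    simp only [pow_one, Finset.prod_range_succ, Finset.prod_range_zero, one_mul]
    norm_num
    linear_combination (a * b * z + b ^ 2 * (z ^ 2 - 1)) * hz'
  | succ n hn ih =>
    have h2 : 2 ^ (n + 1) = 2 ^ n + 2 ^ n := by ring
    have hz2 : (z ^ 2) ^ (2 ^ n) = -1 := by
      rw [← pow_mul, ← hz]
      congr 1
      ring
    have hterm : ∀ i ∈ Finset.range (2 ^ n),
        (a + b * z ^ (2 * i + 1)) * (a + b * z ^ (2 * (2 ^ n + i) + 1)) =
          a ^ 2 + (-(b ^ 2)) * (z ^ 2) ^ (2 * i + 1) := by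
      intro i _
      have e : z ^ (2 * (2 ^ n + i) + 1) = -z ^ (2 * i + 1) := by
        have e0 : 2 * (2 ^ n + i) + 1 = 2 ^ (n + 1) + (2 * i + 1) := by ring
        rw [e0, pow_add, hz]
        ring
      rw [e, ← pow_mul]
      ring
    have hev : Even (2 ^ n) := Nat.even_pow.mpr ⟨even_two, by omega⟩
    have h22 : 2 * 2 ^ n = 2 ^ n + 2 ^ n := by ring
    rw [h2, Finset.prod_range_add, ← Finset.prod_mul_distrib, Finset.prod_congr rfl hterm,
      ih (z ^ 2) (a ^ 2) (-(b ^ 2)) hz2, hev.neg_pow, ← pow_mul, ← pow_mul, h22]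

/-- The same product with the first and the last factor split off. -/
theorem prod_strip (n : ℕ) (hn : 1 ≤ n) (z a b : ℂ) (hz : z ^ (2 ^ n) = -1) :
    (a + b * z) * (a + b * z ^ (2 ^ (n + 1) - 1)) *
      ∏ i ∈ Finset.range (2 ^ n - 2), (a + b * z ^ (2 * i + 3)) = a ^ (2 ^ n) + b ^ (2 ^ n) := by
  have h2 : 2 ≤ 2 ^ n := by
    calc 2 = 2 ^ 1 := rfl
      _ ≤ 2 ^ n := Nat.pow_le_pow_right (by norm_num) hn
  obtain ⟨m, hm⟩ : ∃ m, 2 ^ n = m + 2 := ⟨2 ^ n - 2, by omega⟩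
  have e1 : 2 ^ n - 2 = m := by omega
  have e2 : 2 ^ (n + 1) - 1 = 2 * (m + 1) + 1 := by
    rw [pow_succ]
    omega
  have e3 : ∀ i : ℕ, 2 * (i + 1) + 1 = 2 * i + 3 := fun i => by ring
  rw [← prod_odd_pow n hn z a b hz, e1, e2, hm, Finset.prod_range_succ,
    Finset.prod_range_succ']
  simp only [e3, Nat.mul_zero, zero_add, pow_one]
  ring

end Vale.Agent.H97.GC
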